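import Vale.Agent.P022E.Fm.Big
import Vale.Agent.P022D.V.All1
import Vale.Agent.P022E.Ns

/-!
# P022D, forms side: row BIGR
-/

set_option linter.all false

namespace Vale.Agent.P022E.Fm

open Vale.Agent.P022 Vale.Agent.P022D.V Vale.Agent.P022E.V

variable {O F : Type} [CommRing O] [Field F] [Co O] [IsLocalRing O] {U : Su O F}
  [hC : ∀ l : U.L.C, Fact l.1.Prime] [CharP F 2] {Cc : ∀ l : U.L.C, P022D.Rep.Ch (ZMod l.1) F}

/-- **row BIGR** -/
theorem bigrC (hU : U.Ok) (hN : NZ0 U) (hT : CUT U) (hZ : HZ U) (hS : SBR U Cc)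
    (h0 : NONV U Cc) : BIGR U Cc :=
  bigr (P022D.V.hk O) (All.hkv O) (All.div O) hU hN hT hZ hS h0

end Vale.Agent.P022E.Fm
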