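import Vale.Agent.P022E.Fm.Defs
import Vale.Agent.P022E.Fm.Det
import Vale.Agent.P022D.V.Form
import Vale.Agent.P022E.Ns

/-!
# P022D, forms side: the centre and the determinant after the cut
-/

set_option linter.all false

noncomputable section

namespace Vale.Agent.P022E.Fm

open NumberField IsLocalRing
open Vale.Agent.P022 Vale.Agent.P022.H853 Vale.Agent.P022D.V Vale.Agent.P022E.V Vale.Agent.P027M.M
open Vale.Agent.P022D.G (Inert)

namespace Cen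

section units
variable {M : ℕ} [NeZero M]

theorem cast_eq {K : ℕ} (h : K ∣ M) (x : ZMod M) (y : ℕ) :
    ZMod.castHom h (ZMod K) x = y ↔ x.val ≡ y [MOD K] := by
  rw [ZMod.castHom_apply, ZMod.cast_eq_val, ZMod.natCast_eq_natCast_iff]

theorem cg_of {K : ℕ} {x : ZMod M} {y : ℕ} (h : x.val ≡ y [MOD K]) : P022D.V.Cg M K x y := by
  obtain ⟨t, ht⟩ := h.symm.dvd
  refine ⟨(t : ZMod M), ?_⟩
  have := congrArg (Int.cast : ℤ → ZMod M) ht
  push_cast at this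
  rw [ZMod.natCast_zmod_val] at this
  linear_combination this

theorem cg_one {K : ℕ} {x : ZMod M} (h : x.val ≡ 1 [MOD K]) : P022D.V.Cg M K x 1 := by
  simpa using cg_of h

theorem of_cg {K : ℕ} (hK : K ∣ M) {x : ZMod M} {y : ℕ} (h : P022D.V.Cg M K x y) :
    x.val ≡ y [MOD K] := by
  obtain ⟨t, rfl⟩ := h
  rw [← cast_eq hK, map_add, map_mul, map_natCast, map_natCast, ZMod.natCast_self, zero_mul,
    add_zero]

theorem crt {A B : ℕ} (hM : A * B = M) (hc : A.Coprime B) {x : ℕ} (hx : x.Coprime A) :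
    ∃ c : (ZMod M)ˣ, (c : ZMod M).val ≡ x [MOD A] ∧ (c : ZMod M).val ≡ 1 [MOD B] := by
  obtain ⟨z, h1, h2⟩ := Nat.chineseRemainder hc x 1
  have hz : z.Coprime M := by
    rw [← hM]
    refine Nat.Coprime.mul_right ?_ ?_
    · rw [Nat.Coprime, h1.gcd_eq]; exact hx
    · rw [Nat.Coprime, h2.gcd_eq]; exact Nat.gcd_one_left B
  have e : ((ZMod.unitOfCoprime z hz : (ZMod M)ˣ) : ZMod M).val ≡ z [MOD M] := by
    rw [ZMod.coe_unitOfCoprime, ZMod.val_natCast]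
    exact Nat.mod_modEq z M
  exact ⟨ZMod.unitOfCoprime z hz, (e.of_dvd (Dvd.intro _ hM)).trans h1,
    (e.of_dvd (Dvd.intro_left _ hM)).trans h2⟩

theorem val_ext {x y : ZMod M} (h : x.val ≡ y.val [MOD M]) : x = y := by
  rw [← ZMod.natCast_zmod_val x, ← ZMod.natCast_zmod_val y, ZMod.natCast_eq_natCast_iff]
  exact h

theorem val_pow (x : ZMod M) (k : ℕ) : (x ^ k).val ≡ x.val ^ k [MOD M] := by
  rw [← ZMod.natCast_eq_natCast_iff]
  simp

theorem val_mul (x y : ZMod M) : (x * y).val ≡ x.val * y.val [MOD M] := by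
  rw [← ZMod.natCast_eq_natCast_iff]
  simp

/-- a unit is the product of its local parts -/
theorem unit_gen (H : Submonoid (ZMod M)ˣ) (a : (ZMod M)ˣ)
    (h : ∀ l : ℕ, l.Prime → l ∣ M → ∀ c : (ZMod M)ˣ,
      (c : ZMod M).val ≡ (a : ZMod M).val [MOD ordProj[l] M] →
      (c : ZMod M).val ≡ 1 [MOD ordCompl[l] M] → c ∈ H) : a ∈ H := by
  have h0 := NeZero.ne M
  have ex : ∀ l : ℕ, l.Prime → ∃ c : (ZMod M)ˣ,
      (c : ZMod M).val ≡ (a : ZMod M).val [MOD ordProj[l] M] ∧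
      (c : ZMod M).val ≡ 1 [MOD ordCompl[l] M] := fun l hl =>
    crt (Nat.ordProj_mul_ordCompl_eq_self M l) ((Nat.coprime_ordCompl hl h0).pow_left _)
      ((ZMod.val_coe_unit_coprime a).coprime_dvd_right (Nat.ordProj_dvd M l))
  choose! c hc using ex
  have e : ∏ l ∈ M.primeFactors, c l = a := by
    refine Units.ext (val_ext ((Nat.modEq_iff_dvd).2 ?_))
    rw [Int.natCast_dvd, Nat.dvd_iff_prime_pow_dvd_dvd]
    intro p k hp hk
    rcases Nat.eq_zero_or_pos k with rfl | k0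
    · simp
    have hpM : p ∣ M := (dvd_pow_self p k0.ne').trans hk
    refine ((hp.pow_dvd_iff_dvd_ordProj h0).1 hk).trans ?_
    rw [← Int.natCast_dvd, ← Nat.modEq_iff_dvd, ← cast_eq (Nat.ordProj_dvd M p), Units.coe_prod,
      map_prod, Finset.prod_eq_single p]
    · exact (cast_eq _ _ _).2 (hc p hp).1
    · intro l hl hne
      have hl' := Nat.prime_of_mem_primeFactors hl
      rw [← Nat.cast_one, cast_eq]
      refine (hc l hl').2.of_dvd (Nat.dvd_ordCompl_of_dvd_not_dvd (Nat.ordProj_dvd M p) fun hd => ?_)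
      exact hne ((Nat.prime_dvd_prime_iff_eq hl' hp).1 (hl'.dvd_of_dvd_pow hd))
    · intro hn
      exact absurd (Nat.mem_primeFactors.2 ⟨hp, hpM, h0⟩) hn
  rw [← e]
  exact H.prod_mem fun l hl => have hl' := Nat.prime_of_mem_primeFactors hl
    h l hl' (Nat.dvd_of_mem_primeFactors hl) _ (hc l hl').1 (hc l hl').2

end units

/-- a unipotent element of odd order is trivial -/
theorem odd_fix {B X : Type} [CommRing B] [AddCommGroup X] [Module B X] {z : B} {v : X} {e k : ℕ}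
    (hu : IsUnit (e : B)) (h1 : z ^ e • v = v) (h2 : (z - 1) ^ k • v = 0) : z • v = v := by
  obtain ⟨y, hy⟩ : (z - 1) ∣ ∑ i ∈ Finset.range e, z ^ i - e := by
    rw [show (e : B) = ∑ i ∈ Finset.range e, 1 by simp, ← Finset.sum_sub_distrib]
    exact Finset.dvd_sum fun i _ => by simpa using sub_dvd_pow_sub_pow z 1 i
  have h3 : (e : B) • (z - 1) • v = (-((z - 1) * y)) • (z - 1) • v := by
    have := geom_sum_mul z e
    rw [smul_smul, smul_smul, ← sub_eq_zero, ← sub_smul,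
      show (e : B) * (z - 1) - -((z - 1) * y) * (z - 1) = z ^ e - 1 by
        linear_combination this - (z - 1) * hy, sub_smul, h1, one_smul, sub_self]
  have h4 : ∀ j : ℕ, (e : B) ^ j • (z - 1) • v = (-((z - 1) * y)) ^ j • (z - 1) • v := fun j => by
    induction j with
    | zero => simp
    | succ j ih => rw [pow_succ, mul_smul, h3, smul_comm, ih, smul_smul, pow_succ']
  have h5 := h4 k
  rw [neg_mul_eq_mul_neg, mul_pow, mul_comm, mul_smul, smul_comm ((z - 1) ^ k), h2, smul_zero,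
    smul_zero, (hu.pow k).smul_eq_zero, sub_smul, one_smul, sub_eq_zero] at h5
  exact h5

theorem nsmul_mod {O X : Type} [CommRing O] [AddCommGroup X] [Module O X] {a x y : ℕ} {v : X}
    (h : (2 : O) ^ a • v = 0) (e : x ≡ y [MOD 2 ^ a]) : (x : O) • v = (y : O) • v := by
  obtain ⟨t, ht⟩ := e.dvd
  have := congrArg (Int.cast : ℤ → O) ht
  push_cast at this
  rw [eq_add_of_sub_eq this, add_smul, mul_comm, mul_smul, h, smul_zero, zero_add]

end Cen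

open Vale.Agent.P022D.Fm.Cen Vale.Agent.P022E.Fm.Cen

theorem _root_.Vale.Agent.P022D.Fm.BT.cn_mulE {O A : Type} [CommRing O] [AddCommGroup A] [Module O A]
    {H : Subalgebra O (Module.End O A)} {G : Submodule O A} (a b : P022D.Fm.BT H G) (v : G) :
    (a * b) • v = a • b • v := rfl

variable {O F : Type} [CommRing O] [IsLocalRing O] [Field F] [Co O] {U : Su O F}

theorem Su.Ok.cn_mem_max (h : U.Ok) {c : O} : c ∈ maximalIdeal O ↔ U.ϖ ∣ c :=
  ⟨h.uni.dvd c, fun e hc => h.uni.nu (isUnit_of_dvd_unit e hc)⟩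

theorem Su.Ok.cn_pi_max (h : U.Ok) : U.ϖ ∈ maximalIdeal O := h.uni.nu

theorem Su.Ok.cn_two_max [CharP F 2] (h : U.Ok) : (2 : O) ∈ maximalIdeal O :=
  (h.ok.ker 2).1 (by rw [map_ofNat]; exact CharTwo.two_eq_zero)

theorem Su.Ok.cn_odd_unit [CharP F 2] (h : U.Ok) {e : ℕ} (he : Odd e) : IsUnit (e : O) := by
  obtain ⟨k, rfl⟩ := he
  by_contra hn
  have h1 := (maximalIdeal O).sub_mem (show ((2 * k + 1 : ℕ) : O) ∈ maximalIdeal O from hn)
    ((maximalIdeal O).mul_mem_right (k : O) h.cn_two_max)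
  push_cast at h1
  rw [add_sub_cancel_left] at h1
  exact h1 isUnit_one

theorem Su.Ok.cn_dt_max (h : U.Ok) (g : GQ) : U.dt g - 1 ∈ maximalIdeal O := by
  rw [← h.ok.ker, map_sub, map_one, Su.dt, RingHom.map_det, sub_eq_zero, ← h.ok.det g,
    ← h.ok.lift g]
  rfl

theorem Su.Ok.cn_dvd_NC (h : U.Ok) {l : ℕ} (hl : l.Prime) : l ∣ U.NC ↔ l ∈ U.L.C := by
  rw [h.NC, hl.prime.dvd_finset_prod_iff]
  exact ⟨fun ⟨p, hp, e⟩ => ((Nat.prime_dvd_prime_iff_eq hl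
    (h.ok.pr p (Finset.mem_union_right _ hp)).1).1 e).symm ▸ hp, fun e => ⟨l, e, dvd_rfl⟩⟩

theorem Su.Ok.cn_NC0 (h : U.Ok) : U.NC ≠ 0 := by
  rw [h.NC]
  exact Finset.prod_ne_zero_iff.2 fun l hl => (h.ok.pr l (Finset.mem_union_right _ hl)).1.ne_zero

theorem Su.Ok.cn_N_ne (h : U.Ok) : U.N ≠ 0 := mul_ne_zero h.NW0 h.cn_NC0

theorem Su.Ok.cn_dvd_N (h : U.Ok) {l : ℕ} (hl : l.Prime) : l ∣ U.N ↔ l ∈ U.L.W ∪ U.L.C := by
  rw [Su.N, hl.dvd_mul, h.NW l hl, h.cn_dvd_NC hl, Finset.mem_union]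

theorem Su.Ok.cn_not_T (h : U.Ok) {l : ℕ} (hl : l ∉ U.S.T) : l ≠ 2 ∧ l ∉ U.L.W ∪ U.L.C := by
  rw [h.ok.hT, Finset.mem_insert, Finset.mem_insert, not_or, not_or] at hl
  exact hl.2

section lv
variable {r n M : ℕ} {q : Fin r → ℕ} {b : Fin r → (ZMod M)ˣ} {τ : Fin r → GQ}

theorem Lv.cn_M_ne (h : Lv U r n M q b τ) (hU : U.Ok) : M ≠ 0 := by
  rw [h.eq]
  exact mul_ne_zero hU.cn_N_ne (Finset.prod_ne_zero_iff.2 fun i _ => (h.pr i).1.ne_zero)

theorem Lv.cn_N_dvd (h : Lv U r n M q b τ) : U.N ∣ M := ⟨_, h.eq⟩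

theorem Lv.cn_dvd_Q (h : Lv U r n M q b τ) {l : ℕ} (hl : l.Prime) : l ∣ ∏ i, q i ↔ ∃ i, q i = l := by
  rw [hl.prime.dvd_finset_prod_iff]
  exact ⟨fun ⟨i, _, e⟩ => ⟨i, ((Nat.prime_dvd_prime_iff_eq hl (h.pr i).1).1 e).symm⟩,
    fun ⟨i, e⟩ => ⟨i, Finset.mem_univ i, e ▸ dvd_rfl⟩⟩

theorem Lv.cn_dvd_M (h : Lv U r n M q b τ) (hU : U.Ok) {l : ℕ} (hl : l.Prime) :
    l ∣ M ↔ l ∈ U.L.W ∪ U.L.C ∨ ∃ i, q i = l := by
  rw [h.eq, hl.dvd_mul, hU.cn_dvd_N hl, h.cn_dvd_Q hl]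

theorem Lv.cn_not_two (h : Lv U r n M q b τ) (hU : U.Ok) : ¬ 2 ∣ M := fun e => by
  rcases (h.cn_dvd_M hU Nat.prime_two).1 e with e | ⟨i, e⟩
  · exact (hU.ok.pr 2 e).2 rfl
  · exact (hU.cn_not_T (h.pr i).2).1 e

theorem Lv.cn_q_N (h : Lv U r n M q b τ) (hU : U.Ok) (i : Fin r) : ¬ q i ∣ U.N := fun e =>
  (hU.cn_not_T (h.pr i).2).2 ((hU.cn_dvd_N (h.pr i).1).1 e)

theorem Lv.cn_q_dvd (h : Lv U r n M q b τ) (i : Fin r) : q i ∣ M :=
  h.eq ▸ (Finset.dvd_prod_of_mem q (Finset.mem_univ i)).mul_left _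

theorem Lv.cn_proj_q (h : Lv U r n M q b τ) (hU : U.Ok) (i : Fin r) : ordProj[q i] M = q i := by
  classical
  have hq := (h.pr i).1
  have e : M = q i * (U.N * ∏ j ∈ Finset.univ.erase i, q j) := by
    rw [h.eq, ← Finset.mul_prod_erase _ q (Finset.mem_univ i)]; ring
  have hn : ¬ q i ∣ U.N * ∏ j ∈ Finset.univ.erase i, q j := fun hd => by
    rcases hq.dvd_mul.1 hd with hd | hd
    · exact h.cn_q_N hU i hd
    · obtain ⟨j, hj, hd⟩ := (hq.prime.dvd_finset_prod_iff _).1 hd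
      exact (Finset.mem_erase.1 hj).1 (h.inj ((Nat.prime_dvd_prime_iff_eq hq (h.pr j).1).1 hd)).symm
  rw [e, Nat.factorization_mul hq.ne_zero (fun e0 => hn (by rw [e0]; exact dvd_zero _)),
    Finsupp.add_apply, hq.factorization_self, Nat.factorization_eq_zero_of_not_dvd hn, add_zero, pow_one]

theorem Lv.cn_N_div (h : Lv U r n M q b τ) (hU : U.Ok) (i : Fin r) : U.N ∣ M / q i := by
  have := Nat.dvd_ordCompl_of_dvd_not_dvd h.cn_N_dvd (h.cn_q_N hU i)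
  rwa [h.cn_proj_q hU] at this

theorem Lv.cn_div_NC (h : Lv U r n M q b τ) (hU : U.Ok) : M / U.NC = U.NW * ∏ i, q i :=
  Nat.div_eq_of_eq_mul_right (Nat.pos_of_ne_zero hU.cn_NC0) (by rw [h.eq, Su.N]; ring)

end lv

variable {M : ℕ} {t : GQ → U.B M} {d : GQ →* (U.B M)ˣ}

/-- the maximal ideal acts nilpotently -/
theorem Su.Op.cn_nil_max (h : U.Op t d) {c : O} (hc : c ∈ maximalIdeal O) (v : U.GG M) :
    ∃ k : ℕ, c ^ k • v = 0 := by
  have := h.fin v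
  obtain ⟨a, b, hne, e⟩ := Finite.exists_ne_map_eq_of_infinite fun k : ℕ =>
    (⟨algebraMap O (U.B M) (c ^ k) • v, Submodule.smul_mem _ _
      (Submodule.mem_span_singleton_self v)⟩ : Submodule.span (U.B M) {v})
  have e' : c ^ a • v = c ^ b • v := Subtype.mk.inj e
  clear e
  wlog hlt : a < b generalizing a b
  · exact this b a hne.symm e'.symm (by omega)
  obtain ⟨k, rfl⟩ := Nat.exists_eq_add_of_lt hlt
  have hu : IsUnit (1 - c ^ (k + 1)) := isUnit_one_sub_self_of_mem_nonunits _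
    ((maximalIdeal O).pow_mem_of_mem hc _ (Nat.succ_pos k))
  refine ⟨a, hu.smul_eq_zero.1 ?_⟩
  rw [sub_smul, one_smul, smul_smul, ← pow_add, e', sub_eq_zero]
  congr 2
  omega

theorem Su.Op.cn_max_rad (h : U.Op t d) {c : O} (hc : c ∈ maximalIdeal O) (v : U.GG M) :
    algebraMap O (U.B M) c ∈ (Ideal.torsionOf (U.B M) _ v).radical := by
  obtain ⟨k, hk⟩ := h.cn_nil_max hc v
  exact ⟨k, (Ideal.mem_torsionOf_iff _ _).2 (by rw [← map_pow]; exact hk)⟩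

theorem Su.Op.cn_d_rad (h : U.Op t d) (hU : U.Ok) (g : GQ) (v : U.GG M) :
    ∃ k : ℕ, ((d g : U.B M) - 1) ^ k • v = 0 := by
  obtain ⟨k, -, hk⟩ := h.nil g v
  have := Ideal.add_mem _ (show (d g : U.B M) - algebraMap O _ (U.dt g) ∈
    (Ideal.torsionOf (U.B M) _ v).radical from ⟨k, hk⟩) (h.cn_max_rad (hU.cn_dt_max g) v)
  rwa [map_sub, map_one, sub_add_sub_cancel] at this

theorem Cen.cy_cyc {m K : ℕ} [NeZero m] (h : K ∣ m) (g : GQ) : P022D.Fm.Cy K g (cyc m g : ZMod m).val :=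
  fun ζ e => cyc_spec g (by
    obtain ⟨k, rfl⟩ := h
    rw [pow_mul, e, one_pow])

variable [CharP F 2] [NeZero M]

/-- the determinant of the point on a vector -/
theorem Su.Op.cn_dt_smul (h : U.Op t d) (hU : U.Ok) (hN : U.N ∣ M) (v : U.GG M) (a₁ : ℕ) :
    ∃ a : ℕ, a₁ ≤ a ∧ (2 : O) ^ a • v = 0 ∧ ∀ g, U.dt g • v =
      (U.om (cyc M g : ZMod M).val *
        (((cyc (2 ^ a * M) g : ZMod (2 ^ a * M)).val : ℕ) : O) ^ U.i) • v := by
  obtain ⟨j, hj⟩ := h.cn_nil_max hU.cn_pi_max v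
  obtain ⟨k, hk⟩ := h.cn_nil_max hU.cn_two_max v
  obtain ⟨a, ha⟩ := hU.det j
  refine ⟨a₁ + k + a, by omega, ?_, fun g => ?_⟩
  · rw [add_right_comm, pow_add, mul_smul, hk, smul_zero]
  have hd : U.N ∣ 2 ^ (a₁ + k + a) * M := hN.mul_left _
  obtain ⟨y, hy⟩ := ha g _ ((ZMod.val_coe_unit_coprime (cyc (2 ^ (a₁ + k + a) * M) g)
    ).coprime_dvd_right hd) (P022E.Fm.Cen.cy_cyc (mul_dvd_mul (pow_dvd_pow 2 (by omega)) hN) g)
  rw [hU.omp _ _ ((cyc_mod (2 ^ (a₁ + k + a) * M) (Dvd.intro_left _ rfl) g).of_dvd hN)] at hy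
  rw [eq_add_of_sub_eq hy, add_smul, mul_comm (U.ϖ ^ j), mul_smul, hj, smul_zero, zero_add]

theorem Su.Op.cn_dt_inert (h : U.Op t d) (hU : U.Ok) (hN : U.N ∣ M) (v : U.GG M) {l : ℕ}
    (hl : l.Prime) (l2 : l ≠ 2) {s : GQ} (hs : Inert l s) :
    U.dt s • v = U.om (cyc M s : ZMod M).val • v := by
  obtain ⟨a, -, h2, e⟩ := h.cn_dt_smul hU hN v 0
  obtain ⟨P, hP, hlP, hs⟩ := hs
  have h1 := (cyc_inert_mod (m := 2 ^ a * M) (m' := 2 ^ a) (Dvd.intro _ rfl) hl (fun hd =>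
    l2 ((Nat.prime_dvd_prime_iff_eq hl Nat.prime_two).1 (hl.dvd_of_dvd_pow hd))) hP hlP hs).pow U.i
  rw [e, mul_smul, ← Nat.cast_pow, P022E.Fm.Cen.nsmul_mod h2 h1, one_pow, Nat.cast_one, one_smul]

theorem Su.Ok.cn_om_mul (hU : U.Ok) (hN : U.N ∣ M) (a b : (ZMod M)ˣ) :
    U.om ((a * b : (ZMod M)ˣ) : ZMod M).val = U.om (a : ZMod M).val * U.om (b : ZMod M).val := by
  rw [← hU.omm]
  exact hU.omp _ _ ((P022E.Fm.Cen.val_mul _ _).of_dvd hN)

theorem Su.Ok.cn_om_one (hU : U.Ok) (hN : U.N ∣ M) {a : ZMod M} (h : P022D.V.Cg M U.N a 1) :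
    U.om a.val = 1 := by
  rw [← hU.om1]
  exact hU.omp _ _ (P022E.Fm.Cen.of_cg hN (by simpa using h))

/-- the central character on the units -/
def Su.Ok.cn_omU (hU : U.Ok) (hN : U.N ∣ M) : (ZMod M)ˣ →* O where
  toFun a := U.om (a : ZMod M).val
  map_one' := hU.cn_om_one hN ⟨0, by simp⟩
  map_mul' := hU.cn_om_mul hN

theorem Su.Ok.cn_om_odd (hU : U.Ok) (hN : U.N ∣ M) {p : (ZMod M)ˣ} {e : ℕ} (he : Odd e)
    (hp : p ^ e = 1) : U.om (p : ZMod M).val = 1 := by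
  have h1 : U.om (p : ZMod M).val ^ e = 1 := by
    have := map_pow (hU.cn_omU hN) p e
    rw [hp, map_one] at this
    exact this.symm
  have h2 := hU.cn_mem_max.2 (hU.omr _ ((ZMod.val_coe_unit_coprime p).coprime_dvd_right hN))
  have h3 := geom_sum_mul (U.om (p : ZMod M).val) e
  rw [h1, sub_self] at h3
  have h4 : IsUnit (∑ i ∈ Finset.range e, U.om (p : ZMod M).val ^ i) := by
    by_contra hn
    have h5 : ∑ i ∈ Finset.range e, (U.om (p : ZMod M).val ^ i - 1) ∈ maximalIdeal O :=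
      Ideal.sum_mem _ fun i _ => Ideal.mem_of_dvd _ (by
        simpa using sub_dvd_pow_sub_pow (U.om (p : ZMod M).val) 1 i) h2
    have h6 := (maximalIdeal O).sub_mem (show _ ∈ maximalIdeal O from hn) h5
    rw [Finset.sum_sub_distrib, sub_sub_cancel, Finset.sum_const, Finset.card_range,
      nsmul_one] at h6
    exact h6 (hU.cn_odd_unit he)
  exact sub_eq_zero.1 (h4.mul_right_eq_zero.1 h3)

/-- the scalars which act by the central character -/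
def Cen.cenM (hU : U.Ok) (hN : U.N ∣ M) (v : P022D.Fm.AM O M) : Submonoid (ZMod M)ˣ where
  carrier := {a | rt O (RD O) (dg a a) v = U.om (a : ZMod M).val • v}
  one_mem' := by
    change rt O (RD O) (dg 1 1) v = hU.cn_omU hN 1 • v
    rw [dg_one, rt_one, map_one, one_smul]
  mul_mem' := fun {a b} ha hb => by
    change rt O (RD O) (dg (a * b) (a * b)) v = _
    rw [← dg_mul, ← rt_rt, show rt O (RD O) (dg b b) v = _ from hb, map_smul,
      show rt O (RD O) (dg a a) v = _ from ha, hU.cn_om_mul hN, smul_smul, mul_comm]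

theorem Su.Op.cn_d_inert (h : U.Op t d) {l : ℕ} (hl : l.Prime) (l2 : l ≠ 2) {s : GQ}
    (hs : Inert l s) (v : U.GG M) :
    (((d s : U.B M) • v : U.GG M) : P022D.Fm.AM O M) = rt O (RD O) (dg (cyc M s) (cyc M s)) v :=
  h.dI l hl l2 s hs (cyc M s) (P022E.Fm.Cen.cy_cyc dvd_rfl s) v

/-- inertia elements of odd order act trivially -/
theorem Su.Op.cn_d_odd (h : U.Op t d) (hU : U.Ok) {l : ℕ} (hl : l.Prime) (l2 : l ≠ 2) {s : GQ}
    (hs : Inert l s) {e : ℕ} (he : Odd e) (hp : cyc M s ^ e = 1) (v : U.GG M) :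
    (d s : U.B M) • v = v := by
  obtain ⟨k, hk⟩ := h.cn_d_rad hU s v
  have h1 : ∀ j : ℕ, (((d s : U.B M) ^ j • v : U.GG M) : P022D.Fm.AM O M) =
      rt O (RD O) (dg (cyc M s ^ j) (cyc M s ^ j)) v := fun j => by
    induction j with
    | zero => rw [pow_zero, one_smul, pow_zero, dg_one, rt_one]
    | succ j ih =>
      rw [pow_succ', P022D.Fm.BT.cn_mulE, h.cn_d_inert hl l2 hs, ih, rt_rt, dg_mul, pow_succ']
  refine P022E.Fm.Cen.odd_fix (e := e) ?_ (Subtype.ext ?_) hk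
  · simpa using (hU.cn_odd_unit he).map (algebraMap O (U.B M))
  · rw [h1, hp, dg_one, rt_one]

variable {r n : ℕ} {q : Fin r → ℕ} {b : Fin r → (ZMod M)ˣ} {τ : Fin r → GQ}

/-- **CEN**: the centre acts by `om` after the cut -/
theorem cen (hU : U.Ok) (lv : Lv U r n M q b τ) (h : U.Op t d) {v : U.GG M}
    (h1 : (v : P022D.Fm.AM O M) ∈ U.Ce M (M / U.NC)) (h2 : (v : P022D.Fm.AM O M) ∈ Iv O (RD O) (U.TQ M n))
    (h3 : ∀ l ∈ U.L.W, (d (U.L.τ l) : U.B M) • v = U.dt (U.L.τ l) • v) (a : (ZMod M)ˣ)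
    (ha : ∀ i, ∃ z : ℕ, z ^ 2 ^ n ≡ (a : ZMod M).val [MOD q i]) :
    rt O (RD O) (dg a a) (v : P022D.Fm.AM O M) = U.om (a : ZMod M).val • (v : P022D.Fm.AM O M) := by
  have hN := lv.cn_N_dvd
  have h0 := NeZero.ne M
  refine P022E.Fm.Cen.unit_gen (P022E.Fm.Cen.cenM hU hN v) a fun l hl hlM c c1 c2 => ?_
  rcases (lv.cn_dvd_M hU hl).1 hlM with hm | ⟨i, rfl⟩
  · obtain ⟨-, l2⟩ := hU.ok.pr l hm
    obtain ⟨hP, hlP⟩ := hU.ok.hP l hm
    rcases Finset.mem_union.1 hm with hW | hC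
    · obtain ⟨s, hs, rfl⟩ := H297.L3.inert_cyc hl (Nat.ordProj_mul_ordCompl_eq_self M l).symm
        (Nat.coprime_ordCompl hl h0) hP hlP c c2
      obtain ⟨N, hT⟩ := (hU.ok.tm l hm).tame _ (cyc M) cyc_open
      obtain ⟨j, p, hp, rfl⟩ := hT.cyc s hs
      obtain ⟨e, he, hpe⟩ := hT.odd p hp
      have iτ : Inert l (U.L.τ l) := ⟨_, hP, hlP, (hU.ok.tm l hm).tau⟩
      have ip : Inert l p := ⟨_, hP, hlP, hT.NI hp⟩
      rw [map_mul, map_pow]
      refine Submonoid.mul_mem _ (Submonoid.pow_mem _ ?_ j) ?_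
      · change rt O (RD O) _ _ = _
        rw [← h.cn_d_inert hl l2 iτ, h3 l hW, h.cn_dt_inert hU hN v hl l2 iτ]
        rfl
      · change rt O (RD O) _ _ = _
        rw [← h.cn_d_inert hl l2 ip, h.cn_d_odd hU hl l2 ip he hpe, hU.cn_om_odd hN he hpe, one_smul]
    · have hd : M / U.NC ∣ ordCompl[l] M := by
        refine Nat.dvd_ordCompl_of_dvd_not_dvd (Nat.div_dvd_of_dvd ((Dvd.intro_left _ rfl).trans hN))
          fun hd => ?_
        rw [lv.cn_div_NC hU, hl.dvd_mul, hU.NW l hl, lv.cn_dvd_Q hl] at hd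
        rcases hd with hd | ⟨i, rfl⟩
        · exact Finset.disjoint_left.1 hU.ok.dj hd hC
        · exact (hU.cn_not_T (lv.pr i).2).2 hm
      exact h1 (dg c c) ⟨c, P022E.Fm.Cen.cg_one (c2.of_dvd hd), rfl⟩
  · obtain ⟨z, hz⟩ := ha i
    have hNd := Nat.dvd_ordCompl_of_dvd_not_dvd hN (lv.cn_q_N hU i)
    have hcz : z.Coprime (ordProj[q i] M) := by
      rw [lv.cn_proj_q hU]
      have := (ZMod.val_coe_unit_coprime a).coprime_dvd_right hlM
      rw [Nat.Coprime, ← hz.gcd_eq] at this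
      exact (Nat.coprime_pow_left_iff (by positivity) _ _).1 this
    have hc := (Nat.coprime_ordCompl hl h0).pow_left (M.factorization (q i))
    obtain ⟨y, y1, y2⟩ := P022E.Fm.Cen.crt (Nat.ordProj_mul_ordCompl_eq_self M (q i)) hc hcz
    have e : c = y ^ 2 ^ n := by
      refine Units.ext (P022E.Fm.Cen.val_ext ?_)
      rw [Units.val_pow_eq_pow_val]
      refine Nat.ModEq.trans ?_ (P022E.Fm.Cen.val_pow _ _).symm
      have := (Nat.modEq_and_modEq_iff_modEq_mul hc).1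
        ⟨c1.trans (Nat.ModEq.trans (by rw [lv.cn_proj_q hU]; exact hz.symm) (y1.pow (2 ^ n)).symm),
          c2.trans (by simpa using (y2.pow (2 ^ n)).symm)⟩
      rwa [Nat.ordProj_mul_ordCompl_eq_self] at this
    change rt O (RD O) _ _ = _
    rw [hU.cn_om_one hN (P022E.Fm.Cen.cg_one (c2.of_dvd hNd)), one_smul, e]
    exact mem_Iv.1 h2 _ ⟨y, y, P022E.Fm.Cen.cg_one (y2.of_dvd hNd), P022E.Fm.Cen.cg_one (y2.of_dvd hNd), rfl⟩

theorem Cen.pw_val {n p : ℕ} [NeZero p] (hp : p ∣ M) {g : GQ} (h : Pw n (cyc p g)) :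
    ∃ z : ℕ, z ^ 2 ^ n ≡ (cyc M g : ZMod M).val [MOD p] := by
  obtain ⟨z, hz⟩ := h
  refine ⟨(z : ZMod p).val, ?_⟩
  rw [← ZMod.natCast_eq_natCast_iff, cyc_cast hp, ← hz]
  simp

theorem cen_dd (hU : U.Ok) (lv : Lv U r n M q b τ) (h : U.Op t d) {v : U.GG M}
    (h1 : (v : P022D.Fm.AM O M) ∈ U.Ce M (M / U.NC)) (h2 : (v : P022D.Fm.AM O M) ∈ Iv O (RD O) (U.TQ M n))
    (h3 : ∀ l ∈ U.L.W, (d (U.L.τ l) : U.B M) • v = U.dt (U.L.τ l) • v) {g : GQ}
    (hg : g ∈ U.L.DD) : rt O (RD O) (dg (cyc M g) (cyc M g)) (v : P022D.Fm.AM O M) =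
      U.om (cyc M g : ZMod M).val • (v : P022D.Fm.AM O M) :=
  cen hU lv h h1 h2 h3 _ fun i => by
    have : NeZero (q i) := ⟨(lv.pr i).1.ne_zero⟩
    exact P022E.Fm.Cen.pw_val (lv.cn_q_dvd i) (dd_pw hU.ok (fun l hl => by
      obtain ⟨e, u, w, hc⟩ := hU.wc l hl
      exact hc.odd) (lv.pr i).1 (lv.pr i).2 (lv.one i) (lv.two i) hg)

/-- **the parity**: after the cut only the weight `i + 1` occurs -/
theorem cen_ep (hU : U.Ok) (lv : Lv U r n M q b τ) (h : U.Op t d) {v : U.GG M}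
    (h1 : (v : P022D.Fm.AM O M) ∈ U.Ce M (M / U.NC)) (h2 : (v : P022D.Fm.AM O M) ∈ Iv O (RD O) (U.TQ M n))
    (h3 : ∀ l ∈ U.L.W, (d (U.L.τ l) : U.B M) • v = U.dt (U.L.τ l) • v) :
    ep O (RD O) M (U.i + 1) v = v := by
  have e1 := cen_dd hU lv h h1 h2 h3 (g := U.L.c) (Or.inr (Or.inl rfl))
  obtain ⟨a, -, ha, e2⟩ := h.cn_dt_smul hU lv.cn_N_dvd v 0
  have e3 := e2 U.L.c
  have c1 : cyc M U.L.c = -1 := Units.ext (by rw [cyc_conj hU.ok.cj]; simp)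
  obtain ⟨y, hy⟩ : (2 : O) ^ a ∣
      (((cyc (2 ^ a * M) U.L.c : ZMod (2 ^ a * M)).val : ℕ) : O) ^ U.i - (-1) ^ U.i := by
    refine Dvd.dvd.trans ?_ (sub_dvd_pow_sub_pow _ _ _)
    have h5 : (((cyc (2 ^ a * M) U.L.c : ZMod (2 ^ a * M)).val + 1 : ℕ) : ZMod (2 ^ a * M)) = 0 := by
      rw [Nat.cast_add, ZMod.natCast_zmod_val, cyc_conj hU.ok.cj]
      simp
    have h6 := Nat.cast_dvd_cast (α := O)
      ((Dvd.intro _ rfl : 2 ^ a ∣ 2 ^ a * M).trans ((ZMod.natCast_eq_zero_iff _ _).1 h5))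
    simpa using h6
  rw [show U.dt U.L.c = -1 from hU.ok.odd, mul_smul, eq_add_of_sub_eq hy, add_smul,
    mul_comm ((2 : O) ^ a), mul_smul, ha, smul_zero, zero_add, smul_smul] at e3
  have e4 := congrArg (fun w : U.GG M => (w : P022D.Fm.AM O M)) e3
  simp only [Submodule.coe_smul] at e4
  rw [c1] at e1 e4
  rw [ep_apply, e1, ← Int.cast_smul_eq_zsmul O, smul_smul, Int.cast_pow, Int.cast_neg,
    Int.cast_one, pow_succ, mul_comm ((-1 : O) ^ U.i), mul_assoc, mul_smul, mul_comm, ← e4,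
    smul_smul]
  simp

/-- **the determinant is fixed on `DD`** -/
theorem cld (hU : U.Ok) (lv : Lv U r n M q b τ) (h : U.Op t d) {v : U.GG M}
    (h1 : (v : P022D.Fm.AM O M) ∈ U.Ce M (M / U.NC)) (h2 : (v : P022D.Fm.AM O M) ∈ Iv O (RD O) (U.TQ M n))
    (h3 : ∀ l ∈ U.L.W, (d (U.L.τ l) : U.B M) • v = U.dt (U.L.τ l) • v) {g : GQ}
    (hg : g ∈ U.L.DD) : (d g : U.B M) • v = U.dt g • v := by
  obtain ⟨a₀, h0⟩ := h.dF v
  obtain ⟨a, ha, -, e2⟩ := h.cn_dt_smul hU lv.cn_N_dvd v (a₀ + 1)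
  have ho : Odd (cyc (2 ^ a * M) g : ZMod (2 ^ a * M)).val := Nat.coprime_two_right.1
    ((ZMod.val_coe_unit_coprime _).coprime_dvd_right
      ((dvd_pow_self 2 (by omega)).mul_right M))
  refine Subtype.ext ?_
  rw [h0 g _ (cyc M g) ho (cyc_cast (Dvd.intro_left _ rfl) g).symm
    (P022E.Fm.Cen.cy_cyc (mul_dvd_mul_right (pow_dvd_pow 2 (by omega)) M) g), S2_apply, pw_apply,
    cen_ep hU lv h h1 h2 h3, sub_self, smul_zero, add_zero, Sf_apply, cen_dd hU lv h h1 h2 h3 hg,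
    e2, Submodule.coe_smul, mul_comm (U.om _), mul_smul, ← Nat.cast_pow, Nat.cast_smul_eq_nsmul]

end Vale.Agent.P022E.Fm
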