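import Vale.Agent.P022D.V.Cyc
import Vale.Agent.P022D.V.Grp
import Vale.Agent.P022E.As.Defs2
import Vale.Agent.P022E.Ns

/-!
# P022D, forms side: diamond operators at the auxiliary primes, cyclicity
-/

set_option linter.all false

noncomputable section

namespace Vale.Agent.P022E.Fm

open Vale.Agent.P022 Vale.Agent.P027M.M Vale.Agent.P022D.V Vale.Agent.P022E.V Vale.Agent.P022D.As
  Vale.Agent.P022E.As

section units

variable {M : ℕ}

theorem cg_mul1 {N : ℕ} {a b : ZMod M} (ha : Cg M N a 1) (hb : Cg M N b 1) : Cg M N (a * b) 1 := by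
  obtain ⟨x, rfl⟩ := ha
  obtain ⟨y, rfl⟩ := hb
  exact ⟨x + y + N * x * y, by ring⟩

/-- the units which are `1` modulo `N` -/
def U1 (M N : ℕ) : Subgroup (ZMod M)ˣ where
  carrier := {a | Cg M N a 1}
  one_mem' := Cyc.cg_one
  mul_mem' := cg_mul1
  inv_mem' := Cyc.cg_inv

theorem mem_U1 {N : ℕ} {a : (ZMod M)ˣ} : a ∈ U1 M N ↔ Cg M N a 1 := Iff.rfl

/-- a unit which is `1` modulo `N` is the product of its parts at the other primes -/
theorem unit_ind (H : Subgroup (ZMod M)ˣ) (l : List ℕ) (hn : l.Nodup)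
    (hl : ∀ q ∈ l, Sp M (M / q) q) (N : ℕ) (e : M = N * l.prod) (a : (ZMod M)ˣ)
    (ha : Cg M N a 1)
    (h : ∀ q ∈ l, ∀ c : (ZMod M)ˣ, Cg M (M / q) c 1 → Cg M q c a → c ∈ H) : a ∈ H := by
  induction l generalizing N a with
  | nil =>
    obtain ⟨t, ht⟩ := ha
    rw [List.prod_nil, mul_one] at e
    rw [← e, ZMod.natCast_self, zero_mul, add_zero] at ht
    rw [show a = 1 from Units.ext ht]
    exact H.one_mem
  | cons q l ih =>
    have hq := hl q List.mem_cons_self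
    obtain ⟨hql, hn'⟩ := List.nodup_cons.1 hn
    obtain ⟨x, y, D⟩ := GrpP.dat hq
    have xx := D.ee
    have yy := D.symm.ee
    have xy := D.mul
    have ad := D.add
    have ai := a.mul_inv
    let a1 : (ZMod M)ˣ := Units.mkOfMulEqOne (x * a + y) (x * (a⁻¹ : (ZMod M)ˣ) + y) (by
      linear_combination (x * x) * ai + xx + yy + ad + ((a : ZMod M) + (a⁻¹ : (ZMod M)ˣ)) * xy)
    have e1 : (a1 : ZMod M) = x * a + y := rfl
    have e2 : ((a1⁻¹ * a : (ZMod M)ˣ) : ZMod M) = x + y * a := by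
      change (x * (a⁻¹ : (ZMod M)ˣ) + y) * a = _
      linear_combination x * ai
    obtain ⟨u, hu⟩ := D.eM
    obtain ⟨v, hv⟩ := D.fq
    obtain ⟨t, ht⟩ := ha
    rw [← mul_inv_cancel_left a1 a]
    refine H.mul_mem (h q List.mem_cons_self a1 ⟨u * (a - 1), ?_⟩ ⟨v * (1 - a), ?_⟩)
      (ih hn' (fun p hp => hl p (List.mem_cons_of_mem q hp)) (N * q)
        (by rw [e, List.prod_cons, mul_assoc]) _ ⟨v * t, ?_⟩ fun p hp c c1 c2 =>
        h p (List.mem_cons_of_mem q hp) c c1 ?_)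
    · rw [e1]
      linear_combination ad + ((a : ZMod M) - 1) * hu
    · rw [e1]
      linear_combination (a : ZMod M) * ad + (1 - (a : ZMod M)) * hv
    · rw [e2]
      push_cast
      linear_combination ad + y * ht + ((N : ZMod M) * t) * hv
    · have hp' := hl p (List.mem_cons_of_mem q hp)
      obtain ⟨k, hk⟩ := Cyc.dvd_div hq (Dvd.intro_left _ hp'.eq.symm)
        ((Nat.coprime_primes hp'.prime hq.prime).2 fun e => hql (e ▸ hp))
      obtain ⟨s, hs⟩ := c2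
      rw [hk, Nat.cast_mul] at hu
      refine ⟨s + k * u * (1 - a), ?_⟩
      rw [hs, e2]
      linear_combination (a : ZMod M) * ad + (1 - (a : ZMod M)) * hu

/-- powers of two are `2 ^ n`-th powers at `q` -/
theorem root_two {q n m : ℕ} (hq : Sp M (M / q) q) (h2 : ∃ z : ZMod q, z ^ 2 ^ n = 2)
    {a : (ZMod M)ˣ} (h1 : Cg M (M / q) a 1) (h3 : Cg M q a (2 ^ m)) :
    ∃ c : (ZMod M)ˣ, Cg M (M / q) c 1 ∧ a = c ^ 2 ^ n := by
  obtain ⟨z, hz⟩ := h2
  have : NeZero q := ⟨hq.prime.ne_zero⟩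
  obtain ⟨x, y, D⟩ := GrpP.dat hq
  have xx := D.ee
  have yy := D.symm.ee
  have xy := D.mul
  have p1 : ∀ (w : ZMod M) (k : ℕ), (x * w + y) ^ k = x * w ^ k + y := fun w k => by
    induction k with
    | zero => simp [D.add]
    | succ k ih =>
      rw [pow_succ, ih]
      linear_combination (w ^ (k + 1)) * xx + yy + (w ^ k + w) * xy
  have p2 : (((z.val ^ m) ^ 2 ^ n : ℕ) : ZMod q) = ((2 ^ m : ℕ) : ZMod q) := by
    push_cast
    rw [ZMod.natCast_zmod_val, pow_right_comm, hz]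
  obtain ⟨s, hs⟩ := ((ZMod.natCast_eq_natCast_iff _ _ _).1 p2).dvd
  have p3 := congrArg (Int.cast : ℤ → ZMod M) hs
  push_cast at p3
  have p4 : (x * (z.val : ZMod M) ^ m + y) ^ 2 ^ n = a := by
    rw [p1]
    linear_combination -D.symm.cg.1 h3 - D.cg.1 h1 - x * p3 - s * D.eq + (a : ZMod M) * D.add
  have p5 : IsUnit (x * (z.val : ZMod M) ^ m + y) :=
    (isUnit_pow_iff (by positivity)).1 (p4 ▸ a.isUnit)
  refine ⟨p5.unit, D.cg.2 ?_, Units.ext (by rw [Units.val_pow_eq_pow_val, p5.unit_spec, p4])⟩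
  rw [p5.unit_spec]
  linear_combination ((z.val : ZMod M) ^ m) * xy + yy

theorem dg_pw (a d : (ZMod M)ˣ) (k : ℕ) : dg a d ^ k = dg (a ^ k) (d ^ k) := by
  induction k with
  | zero => simp [dg_one]
  | succ k ih => rw [pow_succ, ih, dg_mul, pow_succ, pow_succ]

end units

variable {O : Type} [CommRing O] [Co O]

/-- a faithful character of `E / O` -/
theorem exists_chi [IsDomain O] [IsDiscreteValuationRing O] :
    ∃ ψ : CharacterModule (RD O), ∀ (a : O) (e : ℕ),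
      (∀ o : O, ψ (o • eD O (Co.j a / 2 ^ e)) = 0) → eD O (Co.j a / 2 ^ e) = 0 := by
  obtain ⟨π, hπ⟩ := IsDiscreteValuationRing.exists_irreducible O
  have sm : ∀ (o : O) (x : ℂ), o • eD O x = eD O (Co.j o * x) := fun o x => by
    rw [Algebra.smul_def, alg_RD, eD_mul, av_alg]
  have j2 : ∀ e : ℕ, (Co.j ((2 : O) ^ e) : ℂ) = 2 ^ e := fun e => by rw [map_pow, map_ofNat]
  have h0 : (Co.j π : ℂ) ≠ 0 := fun h => hπ.ne_zero (Co.inj (h.trans (map_zero _).symm))
  have h1 : eD O (Co.j π)⁻¹ ≠ 0 := fun h => by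
    obtain ⟨c, hc⟩ := Co.fix (O := O) _ (eD_eq_zero.1 h) fun σ hσ => by rw [map_inv₀, hσ]
    exact hπ.not_isUnit (IsUnit.of_mul_eq_one c (Co.inj (by
      rw [map_mul, hc, mul_inv_cancel₀ h0, map_one])))
  obtain ⟨ψ, hψ⟩ := CharacterModule.exists_character_apply_ne_zero_of_ne_zero h1
  refine ⟨ψ, fun a e h => ?_⟩
  have h2 : (2 : ℂ) ^ e ≠ 0 := pow_ne_zero e two_ne_zero
  by_cases hd : (2 : O) ^ e ∣ a
  · obtain ⟨c, rfl⟩ := hd
    rw [eD_eq_zero, map_mul, j2, mul_div_cancel_left₀ _ h2]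
    exact Co.mem c
  · obtain ⟨c, hc⟩ := (ValuationRing.dvd_total a ((2 : O) ^ e)).resolve_right hd
    have hu : ¬ IsUnit c := fun hu => hd (by rw [hc]; exact (hu.mul_right_dvd).2 dvd_rfl)
    obtain ⟨o, rfl⟩ : π ∣ c := by
      rw [← Ideal.mem_span_singleton, ← hπ.maximalIdeal_eq]
      exact hu
    refine absurd ?_ hψ
    rw [← h o, sm]
    congr 2
    have h3 := congrArg (Co.j : O →+* ℂ) hc
    rw [j2, map_mul, map_mul] at h3
    field_simp
    linear_combination h3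

section rp

variable {T W R : Type} [CommRing T] [AddCommGroup W] [Module T W] [CommRing R] [Algebra O R]
  {M : ℕ} (ι : W →+ FT M R)

/-- the operator `t` acts through the element `u` -/
def Rp (u : T) (t : Module.End O (FT M R)) : Prop := ∀ w, ι (u • w) = t (ι w)

variable {ι}

theorem Rp.mul {u u' : T} {t t' : Module.End O (FT M R)} (h : Rp ι u t) (h' : Rp ι u' t') :
    Rp ι (u * u') (t * t') := fun w => by rw [mul_smul, h, h', Module.End.mul_apply]

theorem Rp.add {u u' : T} {t t' : Module.End O (FT M R)} (h : Rp ι u t) (h' : Rp ι u' t') :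
    Rp ι (u + u') (t + t') := fun w => by rw [add_smul, map_add, h, h', LinearMap.add_apply]

theorem Rp.sub {u u' : T} {t t' : Module.End O (FT M R)} (h : Rp ι u t) (h' : Rp ι u' t') :
    Rp ι (u - u') (t - t') := fun w => by rw [sub_smul, map_sub, h, h', LinearMap.sub_apply]

theorem Rp.one : Rp ι (1 : T) (1 : Module.End O (FT M R)) := fun w => by rw [one_smul]; rfl

theorem Rp.list {κ : Type} (u : κ → T) (t : κ → Module.End O (FT M R)) (h : ∀ j, Rp ι (u j) (t j))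
    (l : List κ) : Rp ι (l.map u).prod (l.map t).prod := by
  induction l with
  | nil => exact Rp.one
  | cons j l ih => exact (h j).mul ih

theorem Rp.adjoin {s : Set (Module.End O (FT M R))} (hc : ∀ o : O, ∃ u : T, ∀ w,
    ι (u • w) = o • ι w) (h : ∀ t ∈ s, ∃ u : T, Rp ι u t) {t : Module.End O (FT M R)}
    (ht : t ∈ Algebra.adjoin O s) : ∃ u : T, Rp ι u t := by
  induction ht using Algebra.adjoin_induction with
  | mem t ht => exact h t ht
  | algebraMap o => exact hc o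
  | add x y _ _ hx hy => exact hx.elim fun _ a => hy.elim fun _ b => ⟨_, a.add b⟩
  | mul x y _ _ hx hy => exact hx.elim fun _ a => hy.elim fun _ b => ⟨_, a.mul b⟩

theorem Rp.pow {u : T} {t : Module.End O (FT M R)} (h : Rp ι u t) (k : ℕ) :
    Rp ι (u ^ k) (t ^ k) := by
  induction k with
  | zero => rw [pow_zero, pow_zero]; exact Rp.one
  | succ k ih => rw [pow_succ, pow_succ]; exact ih.mul h

variable (O R) in
/-- right translations as linear maps -/
def rL : GM M →* Module.End O (FT M R) where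
  toFun g := (rt O R g).toLinearMap
  map_one' := by rw [map_one]; rfl
  map_mul' g h := by rw [map_mul]; rfl

theorem rL_apply (g : GM M) (w : FT M R) : rL O R g w = rt O R g w := rfl

variable (O) in
/-- the elements which act through `T` -/
def rpH [NeZero M] (ι : W →+ FT M R) (T : Type) [CommRing T] [Module T W] : Subgroup (GM M) where
  carrier := {g | ∃ u : T, Rp ι u (rL O R g)}
  one_mem' := ⟨1, by rw [map_one]; exact Rp.one⟩
  mul_mem' := fun {a b} ⟨u, hu⟩ ⟨v, hv⟩ => ⟨u * v, by rw [map_mul]; exact hu.mul hv⟩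
  inv_mem' := fun {a} ⟨u, hu⟩ => by
    obtain ⟨k, hk⟩ := mem_powers_iff_mem_zpowers.2 (inv_mem (Subgroup.mem_zpowers a))
    exact ⟨u ^ k, by rw [← hk, map_pow]; exact hu.pow k⟩

variable (O) in
/-- the stabiliser -/
def stH (v : FT M R) : Subgroup (GM M) where
  carrier := {g | rt O R g v = v}
  one_mem' := Cyc.rt_one _
  mul_mem' := fun {g g'} hg hg' => by
    change rt O R (g * g') _ = _
    rw [← Cyc.rt_rt, hg', hg]
  inv_mem' := fun {g} hg => by
    change rt O R g⁻¹ _ = _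
    conv_lhs => rw [← hg]
    rw [Cyc.rt_rt, inv_mul_cancel, Cyc.rt_one]

end rp

/-- `a ↦ diag (a, 1)` -/
def dgl (M : ℕ) : (ZMod M)ˣ →* GM M := MonoidHom.mk' (fun a => dg a 1) fun a b => by
  rw [dg_mul, one_mul]

/-- `a ↦ diag (1, a)` -/
def dgr (M : ℕ) : (ZMod M)ˣ →* GM M := MonoidHom.mk' (fun a => dg 1 a) fun a b => by
  rw [dg_mul, one_mul]

/-- auxiliary primes `q j`, `M = N ∏ q j`, and generators `b j` modulo `2 ^ n`-th powers -/
structure Aux (M N n : ℕ) {r : ℕ} (q : Fin r → ℕ) (b : Fin r → (ZMod M)ˣ) : Prop where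
  odd : Odd M
  eq : M = N * ∏ j, q j
  inj : Function.Injective q
  pr : ∀ j, (q j).Prime ∧ ¬ q j ∣ N
  one : ∀ j, Cg M (M / q j) (b j) 1
  gen : ∀ (j) (a : (ZMod M)ˣ), Cg M (M / q j) a 1 →
    ∃ (k : ℕ) (c : (ZMod M)ˣ), Cg M (M / q j) c 1 ∧ a = b j ^ k * c ^ 2 ^ n

section aux

variable {M N n r : ℕ} {q : Fin r → ℕ} {b : Fin r → (ZMod M)ˣ}

theorem Aux.eq' (A : Aux M N n q b) : M = N * (List.ofFn q).prod := by
  rw [List.prod_ofFn]
  exact A.eq

theorem Aux.nodup (A : Aux M N n q b) : (List.ofFn q).Nodup := List.nodup_ofFn.2 A.inj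

theorem Aux.sp (A : Aux M N n q b) (j : Fin r) : Sp M (M / q j) (q j) ∧ N ∣ M / q j :=
  Cyc.sp_of A.odd A.eq' A.nodup (List.forall_mem_ofFn_iff.2 A.pr) (List.mem_ofFn.2 ⟨j, rfl⟩)

theorem Aux.ind (A : Aux M N n q b) (H : Subgroup (ZMod M)ˣ) {a : (ZMod M)ˣ} (ha : Cg M N a 1)
    (h : ∀ j, ∀ c : (ZMod M)ˣ, Cg M (M / q j) c 1 → Cg M (q j) c a → c ∈ H) : a ∈ H :=
  unit_ind H _ A.nodup (List.forall_mem_ofFn_iff.2 fun j => (A.sp j).1) N A.eq' a ha
    (List.forall_mem_ofFn_iff.2 h)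

/-- the `b j` and the `2 ^ n`-th powers generate -/
theorem Aux.mem (A : Aux M N n q b) (H : Subgroup (ZMod M)ˣ) (hb : ∀ j, b j ∈ H)
    (hc : ∀ (j) (c : (ZMod M)ˣ), Cg M (M / q j) c 1 → c ^ 2 ^ n ∈ H) {a : (ZMod M)ˣ}
    (ha : Cg M N a 1) : a ∈ H :=
  A.ind H ha fun j c c1 _ => by
    obtain ⟨k, c', h1, rfl⟩ := A.gen j c c1
    exact H.mul_mem (H.pow_mem (hb j) k) (hc j c' h1)

/-- **the field `cyc`** -/
theorem cyc_field [IsDomain O] [IsDiscreteValuationRing O] (hC : CYC O) (hR : RAT O)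
    (A : Aux M N n q b) (h3 : 3 ≤ N) (h2 : ∀ j, ∃ z : ZMod (q j), z ^ 2 ^ n = 2) {i : ℕ} {z : O}
    (hz : Co.j z = ze N 1) {W : Type} [AddCommGroup W] [Module (Tg O) W]
    (ι : W →+ FT M (RD O)) (inj : Function.Injective ι)
    (mem : ∀ w, ι w ∈ XD1 O M (i + 1) ⊓ Wh O _ M z)
    (inv : ∀ (j) (c : (ZMod M)ˣ), Cg M (M / q j) c 1 → ∀ w,
      rt O _ (dg (c ^ 2 ^ n) 1) (ι w) = ι w ∧ rt O _ (dg 1 (c ^ 2 ^ n)) (ι w) = ι w)
    (hc : ∀ (o : O) w, ι (cc o • w) = o • ι w)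
    (hT : ∀ (p : ℕ) (u : (ZMod M)ˣ), p.Prime → p ≠ 2 → (u : ZMod M) = p →
      (∃ x : Tg O, Rp ι x (Tf O _ i p u)) ∧ ∃ x : Tg O, Rp ι x (Sf O _ i p u))
    (τ : Fin r → GQ) (f f' : (ZMod M)ˣ →* GM M)
    (hf : (f = dgl M ∧ f' = dgr M) ∨ (f = dgr M ∧ f' = dgl M))
    (hy : ∀ j : Fin r, Rp ι (1 + yy j : Tg O) (rL O _ (f (b j))))
    (ht : ∀ j, Rp ι (tt (τ j) : Tg O) (rL O _ (f (b j)) + rL O _ (f' (b j)))) :
    ∃ χ : CharacterModule W, ∀ w : W, (∀ u : Tg O, χ (u • w) = 0) →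
      (∏ j, (ee n (O := O) τ j - 1)) • w = 0 := by
  have : NeZero M := ⟨A.odd.pos.ne'⟩
  obtain ⟨ψ, hψ⟩ := exists_chi (O := O)
  have hy' : ∀ j : Fin r, Rp ι (tt (τ j) - (1 + yy j) : Tg O) (rL O _ (f' (b j))) := fun j => by
    have := (ht j).sub (hy j)
    rwa [add_sub_cancel_left] at this
  have k1 : ∀ (j) (c : (ZMod M)ˣ), Cg M (M / q j) c 1 → ∀ w,
      rt O _ (f (c ^ 2 ^ n)) (ι w) = ι w ∧ rt O _ (f' (c ^ 2 ^ n)) (ι w) = ι w := by
    rcases hf with ⟨rfl, rfl⟩ | ⟨rfl, rfl⟩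
    exacts [inv, fun j c h w => (inv j c h w).symm]
  have k2 : ∀ a : (ZMod M)ˣ, Cg M N a 1 → f a ∈ rpH O ι (Tg O) ∧ f' a ∈ rpH O ι (Tg O) :=
    fun a ha => ⟨A.mem ((rpH O ι (Tg O)).comap f) (fun j => ⟨_, hy j⟩)
      (fun j c h => ⟨1, fun w => by rw [one_smul]; exact (k1 j c h w).1.symm⟩) ha,
      A.mem ((rpH O ι (Tg O)).comap f') (fun j => ⟨_, hy' j⟩)
      (fun j c h => ⟨1, fun w => by rw [one_smul]; exact (k1 j c h w).2.symm⟩) ha⟩
  have k3 : ∀ a d : (ZMod M)ˣ, Cg M N a 1 → Cg M N d 1 → dg a d ∈ rpH O ι (Tg O) := by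
    intro a d ha hd
    rw [show dg a d = dg a 1 * dg 1 d by rw [dg_mul, one_mul, mul_one]]
    rcases hf with ⟨rfl, rfl⟩ | ⟨rfl, rfl⟩
    exacts [mul_mem (k2 a ha).1 (k2 d hd).2, mul_mem (k2 a ha).2 (k2 d hd).1]
  have cop : Nat.Coprime N (∏ j, q j) := Nat.Coprime.prod_right fun j _ =>
    ((A.pr j).1.coprime_iff_not_dvd.2 (A.pr j).2).symm
  let co : FT M (RD O) →ₗ[O] RD O :=
    ((PowerSeries.coeff (∏ j, q j)).restrictScalars O).comp (LinearMap.proj (1 : GM M))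
  refine ⟨(show RD O →+ AddCircle (1 : ℚ) from ψ).comp (co.toAddMonoidHom.comp ι),
    fun w hw => ?_⟩
  have k4 := hC M N i (List.ofFn q) z A.odd h3 A.eq' A.nodup (List.forall_mem_ofFn_iff.2 A.pr) hz
    (ι w) (mem w) (fun t ht => ?_) (Function.extend q b 1)
    (List.forall_mem_ofFn_iff.2 fun j => by rw [A.inj.extend_apply]; exact A.one j)
  · rw [List.ofFn_eq_map, List.map_map] at k4
    have k5 : ∃ ε : Tg O, ε * ε = 1 ∧ ∀ j : Fin r,
        Rp ι (ε * ((1 + yy j) - (tt (τ j) - (1 + yy j))))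
          (rL O (RD O) (dg (b j) 1) - rL O _ (dg 1 (b j))) := by
      rcases hf with ⟨rfl, rfl⟩ | ⟨rfl, rfl⟩
      · exact ⟨1, one_mul _, fun j => by rw [one_mul]; exact (hy j).sub (hy' j)⟩
      · exact ⟨-1, by ring, fun j => by rw [neg_one_mul, neg_sub]; exact (hy' j).sub (hy j)⟩
    obtain ⟨ε, e1, e2⟩ := k5
    have k6 := Rp.list _ _ e2 (List.finRange r) w
    rw [← Fin.prod_univ_def] at k6
    have k7 : (∏ j : Fin r, ε * ((1 + yy j) - (tt (τ j) - (1 + yy j)))) • w = 0 := by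
      refine inj (k6.trans (Eq.trans ?_ (k4.trans (map_zero ι).symm)))
      congr 2
      refine List.map_congr_left fun j _ => ?_
      rw [Function.comp_apply, A.inj.extend_apply]
      rfl
    have k8 : ∀ (j : Fin r) (v : W), (ee n (O := O) τ j - 1) • v = (-ε * (1 + yy j) ^ (2 ^ n - 1) *
        (ε * ((1 + yy j) - (tt (τ j) - (1 + yy j)))) : Tg O) • v := by
      intro j v
      have a1 : ((1 + yy j : Tg O) ^ 2 ^ n) • v = v := inj (by
        rw [(hy j).pow, ← map_pow, ← map_pow]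
        exact (k1 j _ (A.one j) v).1)
      have a2 : (1 + yy j : Tg O) ^ 2 ^ n = (1 + yy j) ^ (2 ^ n - 1) * (1 + yy j) := by
        rw [← pow_succ, Nat.sub_add_cancel Nat.one_le_two_pow]
      rw [sub_smul, one_smul]
      nth_rewrite 2 [← a1]
      rw [← sub_smul, a2, ee]
      congr 1
      linear_combination ((1 + yy j : Tg O) ^ (2 ^ n - 1) *
        ((1 + yy j) - (tt (τ j) - (1 + yy j)))) * e1
    have k9 : ∀ (s : Finset (Fin r)) (v : W), (∏ j ∈ s, (ee n (O := O) τ j - 1)) • v =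
        (∏ j ∈ s, (-ε * (1 + yy j) ^ (2 ^ n - 1) *
          (ε * ((1 + yy j) - (tt (τ j) - (1 + yy j)))) : Tg O)) • v := by
      intro s
      induction s using Finset.induction_on with
      | empty => exact fun v => rfl
      | insert a s ha ih =>
        intro v
        rw [Finset.prod_insert ha, Finset.prod_insert ha, mul_smul, mul_smul _ (∏ j ∈ s, _), k8, ih]
    rw [k9, Finset.prod_mul_distrib, mul_smul, k7, smul_zero]
  · obtain ⟨u, hu⟩ := Rp.adjoin (T := Tg O) (ι := ι) (fun o => ⟨_, hc o⟩) (by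
      rintro _ (⟨p, u, p1, p2, p3, rfl | rfl⟩ | ⟨a, d, p1, p2, rfl⟩)
      exacts [(hT p u p1 p2 p3).1, (hT p u p1 p2 p3).2, k3 a d p1 p2]) ht
    obtain ⟨a, e, he⟩ := hR M N _ (i + 1) z A.odd h3 A.eq cop hz (ι (u • w)) (mem _)
      (fun a m a1 a2 => A.ind ((stH O (ι (u • w))).comap (dgr M)) a1 fun j c c1 c2 => by
        obtain ⟨c', c3, rfl⟩ := root_two (m := m) (A.sp j).1 (h2 j) c1 (by
          obtain ⟨s, hs⟩ := c2
          obtain ⟨s', hs'⟩ := Cyc.Cg.of_dvd a2 (Finset.dvd_prod_of_mem q (Finset.mem_univ j))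
          exact ⟨s + s', by rw [hs, hs']; ring⟩)
        exact (inv j c' c3 _).2) (∏ j, q j)
    rw [List.prod_ofFn, ← hu, he]
    refine hψ a e fun o => ?_
    have := hw (cc o * u)
    rw [mul_smul] at this
    rw [← he, ← this]
    exact congrArg ψ ((co.map_smul o _).symm.trans (congrArg co (hc o _).symm))

end aux

end Vale.Agent.P022E.Fm
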