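import Vale.Agent.P022E.Fm.Defs
import Vale.Agent.P022D.Fm.FibA
import Vale.Agent.P022E.Ns

/-!
# P022D, forms side: the fibres at the auxiliary primes (definitions)
-/

set_option autoImplicit false
set_option linter.all false

noncomputable section

namespace Vale.Agent.P022E.Fm

open Vale.Agent.P022 Vale.Agent.P022D.V Vale.Agent.P022E.V

variable {O F : Type} [CommRing O] [Field F] [Co O] (U : Su O F) (M : ℕ)

/-- Iwahori level outside `N` -/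
def Su.DI : Submodule O (P022D.Fm.AM O M) := XD O M U.i ⊓ Iv O (RD O) (Bq M U.N)

variable {M}

/-- an operator at the auxiliary primes -/
structure Su.Gq (Φ : Module.End O (P022D.Fm.AM O M)) : Prop where
  mem : ∀ v ∈ U.DI M, Φ v ∈ U.DI M
  T : ∀ (ℓ : PA M), ∀ v ∈ U.DI M,
    Φ (T2 O (RD O) U.i ℓ.1 (P022D.Fm.uP ℓ) v) = T2 O (RD O) U.i ℓ.1 (P022D.Fm.uP ℓ) (Φ v)
  S : ∀ (ℓ : PA M), ∀ v ∈ U.DI M,
    Φ (S2 O (RD O) U.i ℓ.1 (P022D.Fm.uP ℓ) v) = S2 O (RD O) U.i ℓ.1 (P022D.Fm.uP ℓ) (Φ v)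
  rt : ∀ g ∈ Kq M (M / U.N), ∀ v ∈ U.DI M, Φ (rt O (RD O) g v) = rt O (RD O) g (Φ v)
  sc : ∀ a : (ZMod M)ˣ, ∀ v ∈ U.DI M, Φ (P022D.V.rt O (RD O) (dg a a) v) = P022D.V.rt O (RD O) (dg a a) (Φ v)

/-- a submodule which is preserved by these operators -/
def Su.Nq (P : Submodule (U.B M) (U.GG M)) : Prop :=
  ∀ Φ : Module.End O (P022D.Fm.AM O M), U.Gq Φ → ∀ v w : U.GG M, v ∈ P →
    (v : P022D.Fm.AM O M) ∈ Iv O (RD O) (Bq M U.N) → (w : P022D.Fm.AM O M) = Φ v → w ∈ P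

/-- the part of level `N` -/
def Su.PK (P : Submodule (U.B M) (U.GG M)) : Submodule (U.B M) (U.GG M) :=
  P ⊓ U.sb M (Iv O (RD O) (Kq M U.N))

/-- the part of Iwahori level outside `N` -/
def Su.PB (P : Submodule (U.B M) (U.GG M)) : Submodule (U.B M) (U.GG M) :=
  P ⊓ U.sb M (Iv O (RD O) (Bq M U.N))

/-- new vectors at `q` -/
def Su.NewQ (q : ℕ) (D : U.B M) : Prop := ∀ s, IsS M (M / q) s → ∀ v : U.GG M,
  (v : P022D.Fm.AM O M) ∈ Iv O (RD O) (Bq M (M / q)) → (1 + Ts O (RD O) (M / q) q s) v = 0 →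
  (1 + Ts O (RD O) (M / q) q s) (W2 O (RD O) M (M / q) q (zD O M) U.i v) = 0 → D ^ 2 • v = 0

/-- old vectors at `q` -/
def Su.OldQ (q : ℕ) (t d : U.B M) : Prop := ∀ s, IsS M (M / q) s → ∀ v : U.GG M,
  (v : P022D.Fm.AM O M) ∈ Iv O (RD O) (Kq M (M / q)) →
  (1 + Ts O (RD O) (M / q) q s) (W2 O (RD O) M (M / q) q (zD O M) U.i v) =
    q • ((t • v : U.GG M) : P022D.Fm.AM O M) ∧
  W2 O (RD O) M (M / q) q (zD O M) U.i (W2 O (RD O) M (M / q) q (zD O M) U.i v) =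
    q • ((d • v : U.GG M) : P022D.Fm.AM O M)

/-- **the chain of the auxiliary primes** -/
def CHAIN : Prop := ∀ (O F : Type) [CommRing O] [IsLocalRing O] [Field F] [Co O] (U : Su O F)
  (M r : ℕ) (q : Fin r → ℕ) (t d : Fin r → U.B M), Odd M → 3 ≤ U.N → Function.Injective q →
  (∀ i, (q i).Prime ∧ ¬ q i ∣ U.N) → M = U.N * ∏ i, q i →
  (∀ i, U.NewQ (q i) ((q i : U.B M) * t i ^ 2 - ((q i : U.B M) + 1) ^ 2 * d i)) →
  (∀ i, U.OldQ (q i) (t i) (d i)) → ∀ P : Submodule (U.B M) (U.GG M), U.Nq P →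
  ∃ β : (Finset (Fin r) → U.PK P) →ₗ[U.B M] U.PB P, P022D.Fm.Qi (X := Finset (Fin r) → U.PK P) (Y := U.PB P)
    ((∏ i, ((q i : U.B M) * t i ^ 2 - ((q i : U.B M) + 1) ^ 2 * d i)) ^ 3) β

end Vale.Agent.P022E.Fm
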