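import Vale.Agent.P022E.Fm.Inst
import Vale.Agent.P022D.Fm.FibG
import Vale.Agent.P022D.G.Frob
import Vale.Agent.P022E.Ns

/-!
# P022D, forms side: correspondences between two levels
-/

set_option linter.all false

noncomputable section

namespace Vale.Agent.P022E.Fm

open Vale.Agent.P022 Vale.Agent.P022D.V Vale.Agent.P022E.V
open Vale.Agent.P022D.W.Step (kl mem_kl mem_kl1)

variable {O F : Type} [CommRing O] [Field F] [Co O]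

/-- a correspondence which is compatible with the Hecke operators and the group at `N` -/
structure Cr (U : Su O F) {M₁ M₂ : ℕ} (L₁ : P022D.Fm.Lc U.N M₁) (L₂ : P022D.Fm.Lc U.N M₂)
    (R : Submodule O (P022D.Fm.AM O M₁ × P022D.Fm.AM O M₂)) : Prop where
  fn : ∀ w, (0, w) ∈ R → w = 0
  bq : ∀ v w, (v, w) ∈ R → v ∈ Iv O (RD O) (Bq M₁ U.N) ∧ w ∈ Iv O (RD O) (Bq M₂ U.N)
  hk : ∀ (ℓ₁ : PA M₁) (ℓ₂ : PA M₂), ℓ₁.1 = ℓ₂.1 → ∀ v w, (v, w) ∈ R →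
    (T2 O (RD O) U.i ℓ₁.1 (P022D.Fm.uP ℓ₁) v, T2 O (RD O) U.i ℓ₂.1 (P022D.Fm.uP ℓ₂) w) ∈ R ∧
    (S2 O (RD O) U.i ℓ₁.1 (P022D.Fm.uP ℓ₁) v, S2 O (RD O) U.i ℓ₂.1 (P022D.Fm.uP ℓ₂) w) ∈ R
  gp : ∀ g₁ ∈ Kq M₁ (M₁ / U.N), ∀ g₂ ∈ Kq M₂ (M₂ / U.N), pr L₁.dvd g₁ = pr L₂.dvd g₂ →
    ∀ v w, (v, w) ∈ R → (rt O (RD O) g₁ v, rt O (RD O) g₂ w) ∈ R

/-- the group conditions define stable parts -/
structure Sk (U : Su O F) (M n : ℕ) : Prop where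
  wb : ∀ v : U.GG M, (v : P022D.Fm.AM O M) ∈ U.Zp M n ⊓ P022D.Fm.Tor (P022D.Fm.AM O M) U.ϖ → v ∈ U.Wb M n
  zw : ∀ v : U.GG M, (v : P022D.Fm.AM O M) ∈ U.Zw M n → v ∈ U.sb M (U.Zw M n)

variable {U : Su O F}

theorem _root_.Vale.Agent.P022D.Fm.Lc.divCE {M : ℕ} (L : P022D.Fm.Lc U.N M) : M / U.NC = U.NW * (M / U.N) := by
  obtain ⟨Q, hQ⟩ := L.dvd
  have h : U.N ≠ 0 := L.self.ne
  have h' : U.NC ≠ 0 := right_ne_zero_of_mul h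
  have e : M = U.NC * (U.NW * Q) := by rw [hQ, Su.N]; ring
  rw [show M / U.N = Q by rw [hQ, Nat.mul_div_cancel_left _ (Nat.pos_of_ne_zero h)]]
  rw [e, Nat.mul_div_cancel_left _ (Nat.pos_of_ne_zero h')]

theorem NW_dvd : U.NW ∣ U.N := Dvd.intro _ rfl

theorem cg_pow1 {M K : ℕ} {a : (ZMod M)ˣ} (h : Cg M K a 1) (k : ℕ) :
    Cg M K ((a ^ k : (ZMod M)ˣ) : ZMod M) 1 := by
  obtain ⟨t, ht⟩ := h
  induction k with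
  | zero => exact ⟨0, by simp⟩
  | succ k ih =>
    obtain ⟨s, hs⟩ := ih
    exact ⟨s + t + K * s * t, by rw [pow_succ, Units.val_mul, hs, ht]; ring⟩

theorem tq_bq {M n : ℕ} : U.TQ M n ⊆ Bq M U.N := by
  rintro _ ⟨a, d, ha, hd, rfl⟩
  exact ⟨Wq.dg_K (cg_pow1 ha _) (cg_pow1 hd _), rfl⟩

theorem mem_WhP1 {M : ℕ} {v : P022D.Fm.AM O M} : v ∈ U.WhP M ↔ ∀ x : ℕ,
    U.z ^ (U.NC * x) • rt O (RD O) (un ((U.NC * x : ℕ) : ZMod M)) v = v := by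
  rw [Su.WhP, Submodule.mem_iInf]
  exact forall_congr' fun x => sub_eq_zero

namespace Cr

variable {M₁ M₂ : ℕ} {L₁ : P022D.Fm.Lc U.N M₁} {L₂ : P022D.Fm.Lc U.N M₂} {R : Submodule O (P022D.Fm.AM O M₁ × P022D.Fm.AM O M₂)}
  (C : Cr U L₁ L₂ R) {v : P022D.Fm.AM O M₁} {w : P022D.Fm.AM O M₂}
include C

theorem eq {w' : P022D.Fm.AM O M₂} (h : (v, w) ∈ R) (h' : (v, w') ∈ R) : w = w' := by
  have := R.sub_mem h h'
  rw [Prod.mk_sub_mk, sub_self] at this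
  exact sub_eq_zero.1 (C.fn _ this)

theorem tri {g₁ : GM M₁} {g₂ : GM M₂} (h₁ : (U.N : ZMod M₁) * (g₁ : GrpP.Mt M₁) 1 0 = 0)
    (h₂ : (U.N : ZMod M₂) * (g₂ : GrpP.Mt M₂) 1 0 = 0) (e : pr L₁.dvd g₁ = pr L₂.dvd g₂)
    (h : (v, w) ∈ R) : (rt O (RD O) g₁ v, rt O (RD O) g₂ w) ∈ R := by
  obtain ⟨k₁, a₁, b₁, c₁, d₁, rfl⟩ := L₁.red h₁
  obtain ⟨k₂, a₂, b₂, c₂, d₂, rfl⟩ := L₂.red h₂
  rw [← rt_rt, ← rt_rt, mem_Iv.1 (C.bq v w h).1 _ c₁, mem_Iv.1 (C.bq v w h).2 _ c₂]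
  exact C.gp _ a₁ _ a₂ (d₁.trans (e.trans d₂.symm)) v w h

theorem un (x : ℕ) (c : O) (h : (v, w) ∈ R)
    (hv : c • rt O (RD O) (P022D.V.un (x : ZMod M₁)) v = v) :
    c • rt O (RD O) (P022D.V.un (x : ZMod M₂)) w = w := by
  have := R.smul_mem c (C.tri (g₁ := P022D.V.un (x : ZMod M₁)) (g₂ := P022D.V.un (x : ZMod M₂)) (mul_zero _)
    (mul_zero _) (by rw [pr_un, pr_un, map_natCast, map_natCast]) h)
  rw [Prod.smul_mk, hv] at this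
  exact C.eq this h

theorem ce (omp : ∀ x y, x ≡ y [MOD U.N] → U.om x = U.om y) (h : (v, w) ∈ R)
    (hv : v ∈ U.Ce M₁ (M₁ / U.NC)) : w ∈ U.Ce M₂ (M₂ / U.NC) := by
  rintro _ ⟨a₂, ha, rfl⟩
  haveI : NeZero M₁ := ⟨L₁.ne⟩
  haveI : NeZero M₂ := ⟨L₂.ne⟩
  have h0 : Cg U.N U.NW (ZMod.unitsMap L₂.dvd a₂ : (ZMod U.N)ˣ) 1 := by
    obtain ⟨t, ht⟩ := P022D.Fm.cg_dvd (Dvd.intro _ L₂.divCE.symm) ha
    refine ⟨ZMod.castHom L₂.dvd (ZMod U.N) t, ?_⟩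
    change ZMod.castHom L₂.dvd (ZMod U.N) a₂ = _
    rw [ht, map_add, map_one, map_mul, map_natCast]
  obtain ⟨a₁, b, e⟩ := L₁.unit NW_dvd h0
  have e' : ZMod.castHom L₁.dvd (ZMod U.N) a₁ = ZMod.castHom L₂.dvd (ZMod U.N) a₂ := e
  have e1 := hv (dg a₁ a₁) ⟨a₁, L₁.divCE ▸ b, rfl⟩
  have e2 : U.om (a₁ : ZMod M₁).val = U.om (a₂ : ZMod M₂).val := by
    apply omp
    rw [← ZMod.natCast_eq_natCast_iff, ← map_natCast (ZMod.castHom L₁.dvd (ZMod U.N)),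
      ← map_natCast (ZMod.castHom L₂.dvd (ZMod U.N)) (a₂ : ZMod M₂).val, ZMod.natCast_zmod_val,
      ZMod.natCast_zmod_val, e']
  have e3 := C.tri (g₁ := dg a₁ a₁) (g₂ := dg a₂ a₂) (mul_zero _) (mul_zero _) (by
    have : Units.map (ZMod.castHom L₁.dvd (ZMod U.N) : ZMod M₁ →* ZMod U.N) a₁ =
      Units.map (ZMod.castHom L₂.dvd (ZMod U.N) : ZMod M₂ →* ZMod U.N) a₂ := Units.ext e'
    rw [pr_dg, pr_dg, this]) h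
  rw [e1] at e3
  have e4 := R.smul_mem (U.om (a₁ : ZMod M₁).val) h
  exact (C.eq e3 e4).trans (by rw [e2]; rfl)

theorem tq (n : ℕ) (h : (v, w) ∈ R) : w ∈ Iv O (RD O) (U.TQ M₂ n) :=
  fun g hg => (C.bq v w h).2 g (tq_bq hg)

theorem sm {c : O} (h : (v, w) ∈ R) (hv : c • v = 0) : c • w = 0 := by
  have := R.smul_mem c h
  rw [Prod.smul_mk, hv] at this
  exact C.fn _ this

theorem zp (omp : ∀ x y, x ≡ y [MOD U.N] → U.om x = U.om y) {n₁ n₂ : ℕ} (h : (v, w) ∈ R)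
    (hv : v ∈ U.Zp M₁ n₁) : w ∈ U.Zp M₂ n₂ :=
  ⟨⟨C.ce omp h hv.1.1, mem_WhP1.2 fun x => C.un _ _ h (mem_WhP1.1 hv.1.2 x)⟩, C.tq _ h⟩

theorem zw (omp : ∀ x y, x ≡ y [MOD U.N] → U.om x = U.om y) {n₁ n₂ : ℕ} (h : (v, w) ∈ R)
    (hv : v ∈ U.Zw M₁ n₁) : w ∈ U.Zw M₂ n₂ :=
  ⟨⟨C.ce omp h hv.1.1, fun x => C.un _ _ h (hv.1.2 x)⟩, C.tq _ h⟩

end Cr

/-- the correspondence on the carriers -/
def Rg {M₁ M₂ : ℕ} (R : Submodule O (P022D.Fm.AM O M₁ × P022D.Fm.AM O M₂)) (v : U.GG M₁) (w : U.GG M₂) : Prop :=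
  ((v : P022D.Fm.AM O M₁), (w : P022D.Fm.AM O M₂)) ∈ R

namespace Cr

variable {M₁ M₂ : ℕ} {L₁ : P022D.Fm.Lc U.N M₁} {L₂ : P022D.Fm.Lc U.N M₂} {R : Submodule O (P022D.Fm.AM O M₁ × P022D.Fm.AM O M₂)}
  (C : Cr U L₁ L₂ R) {t₁ : GQ → U.B M₁} {d₁ : GQ →* (U.B M₁)ˣ} {t₂ : GQ → U.B M₂}
  {d₂ : GQ →* (U.B M₂)ˣ}
include C

/-- **the Galois operators respect the correspondence** -/
theorem td (h₁ : U.Op t₁ d₁) (h₂ : U.Op t₂ d₂) (g : GQ) {v : U.GG M₁} {w : U.GG M₂}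
    (h : Rg R v w) :
    Rg R (t₁ g • v) (t₂ g • w) ∧ Rg R ((d₁ g : U.B M₁) • v) ((d₂ g : U.B M₂) • w) := by
  obtain ⟨V₁, n₁, o₁, -, e₁⟩ := h₁.opn v
  obtain ⟨V₂, n₂, o₂, -, e₂⟩ := h₂.opn w
  obtain ⟨ℓ, φ, k, hl, hS, hφ, hu⟩ := P022D.G.frob (V₁ ⊓ V₂) inferInstance (o₁.inter o₂) g
    ((2 * M₁).primeFactors ∪ (2 * M₂).primeFactors)
  rw [Finset.mem_union, not_or] at hS
  let ℓ₁ : PA M₁ := ⟨ℓ, hl, fun e => hS.1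
    (Nat.mem_primeFactors.2 ⟨hl, e, mul_ne_zero two_ne_zero L₁.ne⟩)⟩
  let ℓ₂ : PA M₂ := ⟨ℓ, hl, fun e => hS.2
    (Nat.mem_primeFactors.2 ⟨hl, e, mul_ne_zero two_ne_zero L₂.ne⟩)⟩
  have H : ∀ (a : U.GG M₁) (b : U.GG M₂), Rg R a b → Rg R (t₁ φ • a) (t₂ φ • b) ∧
      Rg R ((d₁ φ : U.B M₁) • a) ((d₂ φ : U.B M₂) • b) := fun a b r => by
    unfold Rg
    rw [h₁.frT ℓ₁ φ hφ, h₂.frT ℓ₂ φ hφ, h₁.frS ℓ₁ φ hφ, h₂.frS ℓ₂ φ hφ]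
    exact C.hk ℓ₁ ℓ₂ rfl _ _ r
  have ht : ∀ k : ℕ, (∀ (a : U.GG M₁) (b : U.GG M₂), Rg R a b →
      Rg R (t₁ (φ ^ k) • a) (t₂ (φ ^ k) • b)) ∧ ∀ (a : U.GG M₁) (b : U.GG M₂), Rg R a b →
      Rg R (t₁ (φ ^ (k + 1)) • a) (t₂ (φ ^ (k + 1)) • b) := by
    intro k
    induction k with
    | zero =>
      refine ⟨fun a b r => ?_, fun a b r => by rw [zero_add, pow_one]; exact (H a b r).1⟩
      rw [pow_zero, h₁.tf.one, h₂.tf.one, two_smul, two_smul]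
      exact R.add_mem r r
    | succ k ih =>
      refine ⟨ih.2, fun a b r => ?_⟩
      have x := h₁.tf.mul (φ ^ (k + 1)) φ
      have y := h₂.tf.mul (φ ^ (k + 1)) φ
      rw [← pow_succ, pow_succ φ k, mul_inv_cancel_right, ← pow_succ φ k] at x y
      rw [eq_sub_of_add_eq x.symm, eq_sub_of_add_eq y.symm, sub_smul, sub_smul, mul_smul, mul_smul,
        mul_smul, mul_smul]
      exact R.sub_mem (ih.2 _ _ (H a b r).1) (H _ _ (ih.1 a b r)).2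
  have hd : ∀ (k : ℕ) (a : U.GG M₁) (b : U.GG M₂), Rg R a b →
      Rg R ((d₁ (φ ^ k) : U.B M₁) • a) ((d₂ (φ ^ k) : U.B M₂) • b) := by
    intro k
    induction k with
    | zero =>
      intro a b r
      rwa [pow_zero, map_one, map_one, Units.val_one, Units.val_one, one_smul, one_smul]
    | succ k ih =>
      intro a b r
      rw [pow_succ, map_mul, map_mul, Units.val_mul, Units.val_mul, mul_smul, mul_smul]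
      exact ih _ _ (H a b r).2
  have eg : φ ^ k = g * (g⁻¹ * φ ^ k) := by rw [mul_inv_cancel_left]
  constructor
  · rw [← (e₁ _ hu.1).2 g, ← (e₂ _ hu.2).2 g, ← eg]
    exact (ht k).1 v w h
  · have a := hd k v w h
    rwa [eg, map_mul d₁ g, map_mul d₂ g, Units.val_mul, Units.val_mul, mul_smul, mul_smul,
      (e₁ _ hu.1).1, (e₂ _ hu.2).1] at a

theorem zero {v : U.GG M₁} {w : U.GG M₂} (h : Rg R v w) (hv : v = 0) : w = 0 := by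
  subst hv
  exact Subtype.ext (C.fn _ h)

omit C in
theorem alg (c : O) {v : U.GG M₁} {w : U.GG M₂} (h : Rg R v w) :
    Rg R (algebraMap O (U.B M₁) c • v) (algebraMap O (U.B M₂) c • w) := R.smul_mem c h

end Cr

section lev

variable [IsLocalRing O] [hC : ∀ l : U.L.C, Fact l.1.Prime] [CharP F 2]

omit hC [CharP F 2] in
theorem lcC (hU : U.Ok) {l : ℕ} (hl : l ∈ U.L.C) :
    P022D.Fm.Lc l U.N ∧ U.NW ∣ U.N / l ∧ ∀ p ∈ U.L.C, p ≠ l → p ∣ U.N / l := by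
  have hp : ∀ p ∈ U.L.C, p.Prime := fun p h => (hU.ok.pr p (Finset.mem_union_right _ h)).1
  have e : U.N = l * (U.NW * ∏ p ∈ U.L.C.erase l, p) := by
    rw [Su.N, hU.NC, ← Finset.mul_prod_erase _ _ hl]
    ring
  have e' : U.N / l = U.NW * ∏ p ∈ U.L.C.erase l, p := by
    rw [e, Nat.mul_div_cancel_left _ (hp l hl).pos]
  refine ⟨⟨Dvd.intro _ e.symm, ?_, ?_⟩, Dvd.intro _ e'.symm, fun p h hne => ?_⟩
  · rw [Su.N, hU.NC]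
    exact mul_ne_zero hU.NW0 (Finset.prod_ne_zero_iff.2 fun p h => (hp p h).ne_zero)
  · rw [e']
    refine Nat.Coprime.mul_right ((hp l hl).coprime_iff_not_dvd.2 fun h => ?_)
      (Nat.Coprime.prod_right fun p h => ?_)
    · exact Finset.disjoint_left.1 hU.ok.dj ((hU.NW l (hp l hl)).1 h) hl
    · exact (Nat.coprime_primes (hp l hl) (hp p (Finset.mem_of_mem_erase h))).2
        (Finset.ne_of_mem_erase h).symm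
  · rw [e']
    exact (Finset.dvd_prod_of_mem _ (Finset.mem_erase.2 ⟨hne, h⟩)).mul_left _

omit [CharP F 2] in
/-- the elements of one factor come from the base level -/
theorem ex_bas1 (hU : U.Ok) (l : U.L.C) (γ : U.Gam l) : ∃ g ∈ Kq U.N U.NW,
    ∀ (p : U.L.C) (hp : p.1 ∣ U.N), Pi.mulSingle (M := U.Gam) l γ p =
      QuotientGroup.mk (pr hp g) := by
  obtain ⟨γ, rfl⟩ := QuotientGroup.mk_surjective γ
  obtain ⟨L, h1, h2⟩ := lcC hU l.2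
  obtain ⟨g, a, b⟩ := L.lift (one_dvd _) (g₀ := γ) fun i j =>
    ⟨γ.val i j - (1 : GrpP.Mt l.1) i j, by rw [Nat.cast_one, one_mul, add_sub_cancel]⟩
  rw [one_mul] at a
  refine ⟨g, P022D.Fm.kq_dvd h1 a, fun p hp => ?_⟩
  by_cases e : p = l
  · subst e
    rw [Pi.mulSingle_eq_same, b]
  · rw [Pi.mulSingle_eq_of_ne e,
      (Wq.mem_Kq hp g).1 (P022D.Fm.kq_dvd (h2 p p.2 fun h => e (Subtype.ext h)) a)]
    rfl

theorem act_bas1 (hU : U.Ok) {M n : ℕ} (L : P022D.Fm.Lc U.N M) {X : Dt U M n} (hX : X.Ok) {γ : ∀ l, U.Gam l}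
    {g : GM U.N} (a : g ∈ Kq U.N U.NW)
    (b : ∀ (p : U.L.C) (hp : p.1 ∣ U.N), γ p = QuotientGroup.mk (pr hp g)) :
    ∃ k ∈ Kq M (M / U.N), pr L.dvd k = g ∧ ∀ w : U.Wb M n,
      (((X.E.ρ γ w : U.Wb M n) : U.GG M) : P022D.Fm.AM O M) = rt O (RD O) k (w : U.GG M) := by
  obtain ⟨k, c, rfl⟩ := L.lift NW_dvd a
  refine ⟨k, P022D.Fm.kq_dvd (Dvd.intro_left _ rfl) c, rfl, hX.act k (L.divCE ▸ c) γ fun p hp => ?_⟩
  rw [b p (lcC hU p.2).1.dvd, P022D.Fm.pr_pr]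

namespace Cr

variable {M₁ M₂ n₁ n₂ : ℕ} {L₁ : P022D.Fm.Lc U.N M₁} {L₂ : P022D.Fm.Lc U.N M₂}
  {R : Submodule O (P022D.Fm.AM O M₁ × P022D.Fm.AM O M₂)} (C : Cr U L₁ L₂ R) (hU : U.Ok) {X₁ : Dt U M₁ n₁}
  {X₂ : Dt U M₂ n₂} (h₁ : X₁.Ok) (h₂ : X₂.Ok)
include C hU h₁ h₂

theorem al (l : U.L.C) (r : MonoidAlgebra F (U.Gam l)) {v : U.Wb M₁ n₁} {w : U.Wb M₂ n₂}
    (h : Rg R (v : U.GG M₁) (w : U.GG M₂)) :
    Rg R (X₁.E.al l r v : U.GG M₁) (X₂.E.al l r w : U.GG M₂) := by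
  refine P022D.Rep.el_ind (p := fun r => Rg R (X₁.E.al l r v : U.GG M₁) (X₂.E.al l r w : U.GG M₂))
    r ?_ ?_ ?_
  · intro γ
    obtain ⟨g, a, b⟩ := ex_bas1 hU l γ
    obtain ⟨k₁, a₁, b₁, c₁⟩ := act_bas1 hU L₁ h₁ a b
    obtain ⟨k₂, a₂, b₂, c₂⟩ := act_bas1 hU L₂ h₂ a b
    unfold Rg
    rw [P022D.Rep.Act.al_el, P022D.Rep.Act.al_el, c₁, c₂]
    exact C.gp _ a₁ _ a₂ (b₁.trans b₂.symm) _ _ h
  · intro x y hx hy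
    rw [map_add, map_add, LinearMap.add_apply, LinearMap.add_apply]
    exact R.add_mem hx hy
  · intro c x hx
    obtain ⟨c, rfl⟩ := U.S.surj c
    rw [P022D.Rep.Act.al_smul, P022D.Rep.Act.al_smul, Module.End.mul_apply, Module.End.mul_apply, h₁.sc, h₂.sc]
    exact Cr.alg c hx

omit hU in
theorem jw {v : U.GG M₁} {w : U.GG M₂} (h : Rg R v w) (hv : ∀ c ∈ X₁.JW, c • v = 0) :
    ∀ c ∈ X₂.JW, c • w = 0 := by
  rintro _ (⟨g, hg, rfl⟩ | ⟨l, hl, rfl⟩)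
  · refine C.zero ?_ (hv _ (Or.inl ⟨g, hg, rfl⟩))
    rw [sub_smul, sub_smul]
    exact R.sub_mem (C.td h₁.op h₂.op g h).1 (Cr.alg _ h)
  · refine C.zero ?_ (hv _ (Or.inr ⟨l, hl, rfl⟩))
    rw [sub_smul, sub_smul]
    exact R.sub_mem (C.td h₁.op h₂.op _ h).2 (Cr.alg _ h)

/-- **the types are respected** -/
theorem memY (S : Sk U M₂ n₂) (I : P022D.Rep.Tu F U.Gam) {v : U.GG M₁} {w : U.GG M₂} (h : Rg R v w)
    (hv : v ∈ X₁.Y I) : w ∈ X₂.Y I := by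
  obtain ⟨⟨v, a, rfl⟩, b⟩ := hv
  have c := P022D.Fm.mem_of_sub v.2
  have hw : w ∈ U.Wb M₂ n₂ := S.wb w ⟨C.zp hU.omp h c.1, C.sm h c.2⟩
  refine ⟨⟨⟨w, hw⟩, fun l r hr => Subtype.ext ?_, rfl⟩, C.jw h₁ h₂ h b⟩
  exact C.zero (C.al hU h₁ h₂ l r (w := ⟨w, hw⟩) h) (congrArg Subtype.val (a l r hr))

theorem memWh (S : Sk U M₂ n₂) {v : U.GG M₁} {w : U.GG M₂} (h : Rg R v w) (hv : v ∈ X₁.Wh) :
    w ∈ X₂.Wh := ⟨S.zw w (C.zw hU.omp h (P022D.Fm.mem_of_sub hv.1)), C.jw h₁ h₂ h hv.2⟩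

theorem memWc (S : Sk U M₂ n₂) (j : ℕ) {v : U.GG M₁} {w : U.GG M₂} (h : Rg R v w)
    (hv : v ∈ X₁.Wc j) : w ∈ X₂.Wc j :=
  mem_kl1.2 ⟨C.memWh hU h₁ h₂ S h hv.1, C.zero (Cr.alg _ h) (mem_kl1.1 hv).2⟩

end Cr

end lev

end Vale.Agent.P022E.Fm
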