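import Vale.Agent.P022D.V.All1
import Vale.Agent.P022D.Fm.FibG
import Vale.Agent.P022E.Fm.FibD
import Vale.Agent.P022E.Ns

/-!
# P022D, forms side: the operators `W` and `Tr` at an auxiliary prime
-/

set_option autoImplicit false
set_option linter.all false

noncomputable section

namespace Vale.Agent.P022E.Fm

open Vale.Agent.P022 Vale.Agent.P022D.V Vale.Agent.P022E.V

namespace Fb

section formal

variable {S R : Type} [CommRing S] [CommRing R] [Algebra S R] {M M₀ q N : ℕ} {z : R}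

theorem U_B : Uq M M₀ ⊆ Bq M M₀ := by
  rintro _ ⟨x, rfl⟩
  exact ⟨Wq.un_K x, rfl⟩

theorem B_dvd {K K' : ℕ} (h : K ∣ K') : Bq M K' ⊆ Bq M K := fun _ a => ⟨P022D.Fm.kq_dvd h a.1, a.2⟩

theorem anti {H H' : Set (GM M)} (h : H ⊆ H') {w : FT M R} (hw : w ∈ Iv S R H') :
    w ∈ Iv S R H := fun g hg => hw g (h hg)

theorem div_eq (h : Sp M M₀ q) : M / M₀ = q := by
  have := h.odd.pos
  rw [h.eq] at this ⊢
  exact Nat.mul_div_cancel_left q (Nat.pos_of_mul_pos_right this)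

theorem splitB (h : Sp M M₀ q) (hN : N ∣ M₀) {g : GM M} (hg : g ∈ Bq M N) :
    ∃ a ∈ Kq M q, ∃ b ∈ Bq M M₀, a ∈ Bq M N ∧ g = a * b := by
  obtain ⟨a, ha, b, hb, -, e⟩ := P022D.Fm.Lc.red (N := M₀) (g := g)
    ⟨h.dvd, h.odd.pos.ne', by rw [div_eq h]; exact h.cop⟩ (by rw [hg.2, mul_zero])
  rw [div_eq h] at ha
  refine ⟨a, ha, b, hb, ?_, e⟩
  rw [eq_mul_inv_of_mul_eq e.symm]
  exact Wq.B_mul (hN.trans h.dvd) hg (Wq.B_inv (hN.trans h.dvd) (B_dvd hN hb))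

theorem splitK (h : Sp M M₀ q) (hN : N ∣ M₀) {g : GM M} (hg : g ∈ Kq M N) :
    ∃ a ∈ Kq M q, ∃ b ∈ Kq M M₀, a ∈ Kq M (N * q) ∧ g = a * b := by
  obtain ⟨b, hb, a, ha, e⟩ := (grp M M₀ q h).2.2.2.2.1 g
  have e1 : a ∈ Kq M N := by
    rw [eq_mul_inv_of_mul_eq e.symm]
    exact Wq.K_mul (hN.trans h.dvd) hg (Wq.K_inv (hN.trans h.dvd) (P022D.Fm.kq_dvd hN hb))
  exact ⟨a, ha, b, hb, fun i j => P022D.Fm.cg_cop (h.cop.coprime_dvd_left hN) (e1 i j) (ha i j), e⟩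

theorem dg_sc {a d : (ZMod M)ˣ} (e : Cg M N a d) {w : FT M R} (hw : w ∈ Iv S R (Bq M N)) :
    rt S R (dg a d) w = rt S R (dg d d) w := by
  obtain ⟨t, ht⟩ := e
  have e1 : dg a d = dg d d * dg (d⁻¹ * a) 1 := by rw [dg_mul, mul_inv_cancel_left, mul_one]
  rw [e1, ← rt_rt, mem_Iv.1 hw _ ⟨Wq.dg_K ⟨(d⁻¹ : (ZMod M)ˣ) * t, ?_⟩ ⟨0, by simp⟩, rfl⟩]
  rw [Units.val_mul, ht, mul_add, Units.inv_mul]
  ring

section W

variable (h : Sp M M₀ q) (hz : z ^ M = 1) (i : ℕ) {w : FT M R} (hw : w ∈ Iv S R (Uq M M₀))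
include h hz hw

theorem W_rt {g : GM M} (hg : g ∈ Kq M q) :
    W2 S R M M₀ q z i (rt S R g w) = rt S R g (W2 S R M M₀ q z i w) := by
  obtain ⟨-, -, b⟩ := (wf1 S R M M₀ q z h hz w hw).2.2.1 g hg
  obtain ⟨-, a, -⟩ := (wf1 S R M M₀ q z h hz _ (Iv_pw i q hw)).2.2.1 g hg
  rw [W2_apply, W2_apply, ← rt_pw, a, b, map_add, map_nsmul]

theorem W_dg {a d : (ZMod M)ˣ} (e : Cg M M₀ a d) :
    W2 S R M M₀ q z i (rt S R (dg a d) w) = rt S R (dg d a) (W2 S R M M₀ q z i w) := by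
  obtain ⟨-, -, b⟩ := (wf1 S R M M₀ q z h hz w hw).2.2.2.1 a d e
  obtain ⟨-, a, -⟩ := (wf1 S R M M₀ q z h hz _ (Iv_pw i q hw)).2.2.2.1 a d e
  rw [W2_apply, W2_apply, ← rt_pw, a, b, map_add, map_nsmul]

theorem W_U : W2 S R M M₀ q z i w ∈ Iv S R (Uq M M₀) :=
  add_mem (nsmul_mem (wf1 S R M M₀ q z h hz _ (Iv_pw i q hw)).2.1.1 _)
    (wf1 S R M M₀ q z h hz w hw).2.1.2

theorem W_sc (a : (ZMod M)ˣ) :
    W2 S R M M₀ q z i (rt S R (dg a a) w) = rt S R (dg a a) (W2 S R M M₀ q z i w) :=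
  W_dg h hz i hw ⟨0, by simp⟩

theorem W_pw (j p : ℕ) :
    W2 S R M M₀ q z i (pw S R M j p w) = pw S R M j p (W2 S R M M₀ q z i w) := by
  simp only [pw_apply, ep_apply, map_add, map_sub, map_nsmul, map_zsmul, W_sc h hz i hw]

theorem W_UV {p : ℕ} {u : (ZMod M)ˣ} (hu : (u : ZMod M) = p) :
    W2 S R M M₀ q z i (Uf S R p u w) = Uf S R p u (W2 S R M M₀ q z i w) ∧
    W2 S R M M₀ q z i (Vf S R p u w) = Vf S R p u (W2 S R M M₀ q z i w) := by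
  obtain ⟨-, -, -, b, -, d⟩ := (wf1 S R M M₀ q z h hz w hw).2.2.2.2.1 p u hu
  obtain ⟨-, -, a, -, c, -⟩ := (wf1 S R M M₀ q z h hz _ (Iv_pw i q hw)).2.2.2.2.1 p u hu
  rw [W2_apply, W2_apply, W2_apply, ← com_pw _ (fun g => rt_Uf g p u),
    ← com_pw _ (fun g => rt_Vf g p u), a, b, c, d]
  simp only [map_add, map_nsmul, and_self]

theorem W_T2 (j : ℕ) {p : ℕ} {u : (ZMod M)ˣ} (hu : (u : ZMod M) = p) :
    W2 S R M M₀ q z i (T2 S R j p u w) = T2 S R j p u (W2 S R M M₀ q z i w) := by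
  rw [T2_apply, T2_apply, map_add, map_nsmul, (W_UV h hz i hw hu).1,
    (W_UV h hz i (Iv_pw j p hw) hu).2, W_pw h hz i hw]

theorem W_S2 (j p : ℕ) (u : (ZMod M)ˣ) :
    W2 S R M M₀ q z i (S2 S R j p u w) = S2 S R j p u (W2 S R M M₀ q z i w) := by
  rw [S2_apply, S2_apply, Sf_apply, Sf_apply, map_nsmul, W_sc h hz i (Iv_pw j p hw),
    W_pw h hz i hw]

omit hw in
theorem W_B (hw : w ∈ Iv S R (Bq M M₀)) : W2 S R M M₀ q z i w ∈ Iv S R (Bq M M₀) := by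
  rw [mem_Iv]
  intro g hg
  obtain ⟨u, hu, a, d, ⟨s, hs⟩, ⟨t, ht⟩, rfl⟩ := (grp M M₀ q h).2.2.2.2.2.2.1 g hg
  rw [← rt_rt, ← W_dg h hz i (anti U_B hw) ⟨t - s, by rw [hs, ht]; ring⟩,
    mem_Iv.1 hw _ ⟨Wq.dg_K ⟨t, ht⟩ ⟨s, hs⟩, rfl⟩, mem_Iv.1 (W_U h hz i (anti U_B hw)) u hu]

omit hw in
theorem W_BN (hN : N ∣ M₀) (hw : w ∈ Iv S R (Bq M N)) :
    W2 S R M M₀ q z i w ∈ Iv S R (Bq M N) := by
  rw [mem_Iv]
  intro g hg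
  obtain ⟨a, ha, b, hb, c, rfl⟩ := splitB h hN hg
  have h1 := anti (B_dvd hN) hw
  rw [← rt_rt, mem_Iv.1 (W_B h hz i h1) b hb, ← W_rt h hz i (anti U_B h1) ha, mem_Iv.1 hw a c]

theorem W_K {A : ℕ} (hA : q ∣ A) (hK : w ∈ Iv S R (Kq M A)) :
    W2 S R M M₀ q z i w ∈ Iv S R (Kq M A) := mem_Iv.2 fun g hg => by
  rw [← W_rt h hz i hw (P022D.Fm.kq_dvd hA hg), mem_Iv.1 hK g hg]

end W

section Tr

variable (h : Sp M M₀ q) {s : GM M} (hs : IsS M M₀ s) (w : FT M R)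

theorem Tr_com (Φ : FT M R →ₗ[S] FT M R) (hΦ : ∀ g ∈ Kq M M₀, ∀ v, rt S R g (Φ v) = Φ (rt S R g v))
    (h : Sp M M₀ q) (hs : IsS M M₀ s) : (1 + Ts S R M₀ q s) (Φ w) = Φ ((1 + Ts S R M₀ q s) w) := by
  simp only [LinearMap.add_apply, Module.End.one_apply, Ts_apply, map_add, map_sum]
  exact congrArg _ (Finset.sum_congr rfl fun x _ => hΦ _ (Wq.K_mul h.dvd (Wq.un_K _) hs.1) w)

include h hs

theorem Tr_rt {g : GM M} (hg : g ∈ Kq M q) :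
    (1 + Ts S R M₀ q s) (rt S R g w) = rt S R g ((1 + Ts S R M₀ q s) w) :=
  Tr_com w (rt S R g).toLinearMap (fun k hk v => by
    rw [AlgHom.toLinearMap_apply, AlgHom.toLinearMap_apply, rt_rt, rt_rt,
      (grp M M₀ q h).2.2.2.1 k hk g hg]) h hs

variable {w}

theorem Tr_mem (hw : w ∈ Iv S R (Bq M M₀)) : (1 + Ts S R M₀ q s) w ∈ Iv S R (Kq M M₀) :=
  Wq.tr_mem grp h hs hw

theorem Tr_BN (hN : N ∣ M₀) (hw : w ∈ Iv S R (Bq M N)) :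
    (1 + Ts S R M₀ q s) w ∈ Iv S R (Bq M N) := by
  rw [mem_Iv]
  intro g hg
  obtain ⟨a, ha, b, hb, c, rfl⟩ := splitB h hN hg
  rw [← rt_rt, mem_Iv.1 (Tr_mem h hs (anti (B_dvd hN) hw)) b hb.1, ← Tr_rt h hs w ha,
    mem_Iv.1 hw a c]

theorem Tr_K (hN : N ∣ M₀) (hw : w ∈ Iv S R (Bq M M₀)) (hK : w ∈ Iv S R (Kq M (N * q))) :
    (1 + Ts S R M₀ q s) w ∈ Iv S R (Kq M N) := by
  rw [mem_Iv]
  intro g hg
  obtain ⟨a, ha, b, hb, c, rfl⟩ := splitK h hN hg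
  rw [← rt_rt, mem_Iv.1 (Tr_mem h hs hw) b hb, ← Tr_rt h hs w ha, mem_Iv.1 hK a c]

end Tr

end formal

variable {O F : Type} [CommRing O] [Field F] [Co O] {M M₀ q : ℕ}

theorem XD_W (h : Sp M M₀ q) (h3 : 3 ≤ M) (i : ℕ) {v : FT M (RD O)} (hv : v ∈ XD O M i)
    (hU : v ∈ Iv O _ (Uq M M₀)) : W2 O _ M M₀ q (zD O M) i v ∈ XD O M i := by
  obtain ⟨p1, -, p3, p4, -⟩ := All.div O M h.odd h3
  obtain ⟨n, a⟩ := (p4 i v hv).1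
  obtain ⟨x, c, rfl⟩ := ((p3 i _ (Dv.two_pow_ne n)).2 v).1 ⟨hv, a⟩
  have e : ∀ y, dv ((2 : O) ^ n) (zR M _ * y) = zD O M * dv _ y := fun y => (Tr.dv_mul _ y).symm
  refine (((p3 i _ (Dv.two_pow_ne n)).2 _).2 ⟨_, (All.wv O M M₀ q h h3).2.1 i _ (Dv.two_pow_ne n) x
    ⟨c, fun g hg => p1 _ (Dv.two_pow_ne n) ?_⟩, ml_W2 _ M₀ q e i x⟩).1
  rw [ml_rt, hU g hg, one_smul, one_smul]

theorem XD_rt (hM : Odd M) (h3 : 3 ≤ M) {i : ℕ} (g : GM M) {v : FT M (RD O)} (hv : v ∈ XD O M i) :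
    rt O _ g v ∈ XD O M i := ((All.div O M hM h3).2.2.2.1 i v hv).2.1 g

theorem XD_tc (hM : Odd M) {i : ℕ} {v : FT M (RD O)} (hv : v ∈ XD O M i) : TC (zD O M) v := by
  obtain ⟨a, ha, b, hb, rfl⟩ := Submodule.mem_sup.1 hv
  have e := (vs3 O M 2 hM (root O M hM).2.2.2.2.2.2.2.2.2).2.2.2.2.2.2.2.2.2
  exact Wq.TC_add (e _ a ha.1) (e _ b hb.1)

variable (U : Su O F)

theorem gq_W (h : Sp M M₀ q) (h3 : 3 ≤ M) (hN : U.N ∣ M₀) (hq : q ∣ M / U.N) :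
    U.Gq (W2 O _ M M₀ q (zD O M) U.i) := by
  have hz := (root O M h.odd).2.2.2.2.2.1.pow
  have u : ∀ v ∈ U.DI M, v ∈ Iv O _ (Uq M M₀) := fun v hv => anti (U_B.trans (B_dvd hN)) hv.2
  exact ⟨fun v hv => ⟨XD_W h h3 _ hv.1 (u v hv), W_BN h hz _ hN hv.2⟩,
    fun ℓ v hv => W_T2 h hz _ (u v hv) _ rfl, fun ℓ v hv => W_S2 h hz _ (u v hv) _ _ _,
    fun g hg v hv => W_rt h hz _ (u v hv) (P022D.Fm.kq_dvd hq hg), fun a v hv => W_sc h hz _ (u v hv) a⟩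

theorem gq_Tr (h : Sp M M₀ q) (h3 : 3 ≤ M) (hN : U.N ∣ M₀) (hq : q ∣ M / U.N) {s : GM M}
    (hs : IsS M M₀ s) : U.Gq (1 + Ts O (RD O) M₀ q s) := by
  refine ⟨fun v hv => ⟨?_, Tr_BN h hs hN hv.2⟩,
    fun ℓ v _ => Tr_com v _ (fun g _ => rt_T2 g _ _ _) h hs,
    fun ℓ v _ => Tr_com v _ (fun g _ => rt_S2 g _ _ _) h hs,
    fun g hg v _ => Tr_rt h hs v (P022D.Fm.kq_dvd hq hg),
    fun a v _ => Tr_com v (rt O _ (dg a a)).toLinearMap (fun g _ => rt_sc g a) h hs⟩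
  rw [LinearMap.add_apply, Ts_apply]
  exact add_mem hv.1 (Submodule.sum_mem _ fun x _ => XD_rt h.odd h3 _ hv.1)

end Fb

end Vale.Agent.P022E.Fm
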