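import Vale.Agent.P022E.Fm.Rows
import Vale.Agent.P022E.Fm.Basic
import Vale.Agent.P022E.Ns

/-!
# P022D, forms side: the primary part and the change of level
-/

set_option linter.all false

open scoped MatrixGroups

noncomputable section

namespace Vale.Agent.P022E.Fm

open Vale.Agent.P022 Vale.Agent.P022D.V Vale.Agent.P022E.V Vale.Agent.P027M.M
open Vale.Agent.P022D.G (Wd wT wS Inert)

theorem Nl_map2 {O A A' : Type} [CommRing O] [AddCommGroup A] [Module O A] [AddCommGroup A']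
    [Module O A'] (f : A →ₗ[O] A') (hf : Function.Injective f) {e : Module.End O A}
    {e' : Module.End O A'} (h : ∀ v, f (e v) = e' (f v)) (c : O) (v : A) :
    f v ∈ P022D.Fm.Nl (e' - algebraMap O _ c) ↔ v ∈ P022D.Fm.Nl (e - algebraMap O _ c) := by
  have a : ∀ (k : ℕ) v, ((e' - algebraMap O _ c) ^ k) (f v) =
      f (((e - algebraMap O _ c) ^ k) v) := by
    intro k
    induction k with
    | zero => intro v; rfl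
    | succ k ih =>
      intro v
      rw [pow_succ, pow_succ, Module.End.mul_apply, Module.End.mul_apply, ← ih,
        LinearMap.sub_apply, LinearMap.sub_apply, map_sub f, h, Module.algebraMap_end_apply,
        Module.algebraMap_end_apply, map_smul f]
  rw [P022D.Fm.mem_Nl, P022D.Fm.mem_Nl]
  refine exists_congr fun k => ?_
  rw [a, map_eq_zero_iff f hf]

variable {O F : Type} [CommRing O] [IsLocalRing O] [Co O] [Field F] [CharP F 2] {U : Su O F}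

/-- the primary parts correspond -/
theorem pm_ifl {M₀ M : ℕ} (h : M₀ ∣ M) (hM : Odd M) (v : P022D.Fm.AM O M₀) :
    ifl O (RD O) h v ∈ P022D.Fm.Pm (P022D.Fm.bw O M U.i) (U.sys M) ∅ ↔
      v ∈ P022D.Fm.Pm (P022D.Fm.bw O M₀ U.i) (U.sys M₀) M.primeFactors := by
  have key : ∀ (ℓ : PA M) (ℓ₀ : PA M₀), ℓ₀.1 = ℓ.1 →
      ((ifl O (RD O) h v ∈ P022D.Fm.Nl (P022D.Fm.bw O M U.i (wT ℓ) - algebraMap O _ (U.sys M (Sum.inl ℓ))) ∧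
        ifl O (RD O) h v ∈ P022D.Fm.Nl (P022D.Fm.bw O M U.i (wS ℓ) - algebraMap O _ (U.sys M (Sum.inr ℓ)))) ↔
      (v ∈ P022D.Fm.Nl (P022D.Fm.bw O M₀ U.i (wT ℓ₀) - algebraMap O _ (U.sys M₀ (Sum.inl ℓ₀))) ∧
        v ∈ P022D.Fm.Nl (P022D.Fm.bw O M₀ U.i (wS ℓ₀) - algebraMap O _ (U.sys M₀ (Sum.inr ℓ₀))))) := by
    rintro ⟨l, hl⟩ ⟨l₀, hl₀⟩ e
    obtain rfl : l₀ = l := e
    rw [bw_T, bw_S, bw_T, bw_S]
    exact and_congr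
      (Nl_map2 _ (ifl_inj h hM) (ifl_T2 h U.i (uP_coe ⟨l₀, hl⟩) (uP_coe ⟨l₀, hl₀⟩)) _ v)
      (Nl_map2 _ (ifl_inj h hM) (ifl_S2 h U.i (uP_coe ⟨l₀, hl⟩) (uP_coe ⟨l₀, hl₀⟩)) _ v)
  rw [mem_Pm, mem_Pm]
  refine ⟨fun a ℓ₀ h₀ => ?_, fun a ℓ _ => ?_⟩
  · have nd : ¬ ℓ₀.1 ∣ 2 * M := fun d => by
      rcases (Nat.Prime.dvd_mul ℓ₀.2.1).1 d with d | d
      · exact ℓ₀.2.2 (d.mul_right _)
      · exact h₀ (Nat.mem_primeFactors.2 ⟨ℓ₀.2.1, d, hM.pos.ne'⟩)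
    exact (key ⟨ℓ₀.1, ℓ₀.2.1, nd⟩ ℓ₀ rfl).1 (a _ (Finset.notMem_empty _))
  · refine (key ℓ ⟨ℓ.1, ℓ.2.1, fun d => ℓ.2.2 (d.trans (Nat.mul_dvd_mul_left 2 h))⟩ rfl).2
      (a _ fun m => ℓ.2.2 ((Nat.dvd_of_mem_primeFactors m).mul_left 2))

/-- change of level between any two levels -/
theorem gg_ifl' (hG : GOP U) {M₀ M : ℕ} (h : M₀ ∣ M) (hM : Odd M) (h3 : 3 ≤ M₀) :
    (∀ v ∈ U.GG M₀, ifl O (RD O) h v ∈ U.GG M ∧ ifl O (RD O) h v ∈ Iv O (RD O) (Kq M M₀)) ∧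
    ∀ v ∈ U.GG M, v ∈ Iv O (RD O) (Kq M M₀) → ∃ v₀ ∈ U.GG M₀, ifl O (RD O) h v₀ = v := by
  have e := ((All.descv O M₀ M h hM h3).2 U.i).2
  have g := (hG M₀ (hM.of_dvd_nat h) h3).2 M.primeFactors
  refine ⟨fun v hv => ?_, fun v hv hk => ?_⟩
  · have m : ifl O (RD O) h v ∈ XD O M U.i ⊓ Iv O (RD O) (Kq M M₀) :=
      e ▸ Submodule.mem_map_of_mem hv.1
    rw [← g] at hv
    exact ⟨⟨m.1, (pm_ifl h hM v).2 hv.2⟩, m.2⟩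
  · have m : v ∈ (XD O M₀ U.i).map (ifl O (RD O) h) := e ▸ ⟨hv.1, hk⟩
    obtain ⟨v₀, a, rfl⟩ := m
    exact ⟨v₀, g ▸ ⟨a, (pm_ifl h hM v₀).1 hv.2⟩, rfl⟩

theorem gg_ifl (hU : U.Ok) (hG : GOP U) {M : ℕ} (L : U.Lm M) :
    (∀ v ∈ U.GG U.N, ifl O (RD O) L.dvd v ∈ U.GG M) ∧
    ∀ v ∈ U.GG M, v ∈ Iv O (RD O) (Kq M U.N) → ∃ v₀ ∈ U.GG U.N, ifl O (RD O) L.dvd v₀ = v :=
  ⟨fun v hv => ((gg_ifl' hG L.dvd L.odd L.le).1 v hv).1, (gg_ifl' hG L.dvd L.odd L.le).2⟩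

end Vale.Agent.P022E.Fm
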