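import Vale.Agent.P022E.Fm.Defs
import Vale.Agent.P022D.Fm.ProjA
import Vale.Agent.P022D.V.All0
import Vale.Agent.P022E.Ns

/-!
# P022D, forms side: finite orbits and the projector to the primary part
-/

set_option linter.all false

noncomputable section

namespace Vale.Agent.P022E.Fm.Pj

open Vale.Agent.P022 Vale.Agent.P022D.V Vale.Agent.P022E.V Vale.Agent.P027M.M
open Vale.Agent.P022D.G (Wd wT wS)

variable {O : Type} [CommRing O] [Co O] {M i : ℕ} {π : O}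

theorem bw_T (ℓ : PA M) : P022D.Fm.bw O M i (wT ℓ) = T2 O (RD O) i ℓ.1 (P022D.Fm.uP ℓ) :=
  FreeAlgebra.lift_ι_apply _ _

theorem bw_S (ℓ : PA M) : P022D.Fm.bw O M i (wS ℓ) = S2 O (RD O) i ℓ.1 (P022D.Fm.uP ℓ) :=
  FreeAlgebra.lift_ι_apply _ _

theorem uP_coe (ℓ : PA M) : (P022D.Fm.uP ℓ : ZMod M) = (ℓ.1 : ℕ) := ZMod.coe_unitOfCoprime _ _

theorem ne2 (ℓ : PA M) : ℓ.1 ≠ 2 := fun h => ℓ.2.2 (by rw [h]; exact dvd_mul_right 2 M)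

variable (O M i) in
/-- the algebra of the Hecke operators outside `S` -/
def HS (S : Finset ℕ) : Subalgebra O (Module.End O (P022D.Fm.AM O M)) :=
  Algebra.adjoin O {e | ∃ ℓ : PA M, ℓ.1 ∉ S ∧
    (e = T2 O (RD O) i ℓ.1 (P022D.Fm.uP ℓ) ∨ e = S2 O (RD O) i ℓ.1 (P022D.Fm.uP ℓ))}

variable {S : Finset ℕ}

/-- an operator which commutes with the generators commutes with `HS` -/
theorem HS_com {e : Module.End O (P022D.Fm.AM O M)}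
    (h : ∀ ℓ : PA M, ℓ.1 ∉ S → Commute e (T2 O (RD O) i ℓ.1 (P022D.Fm.uP ℓ)) ∧
      Commute e (S2 O (RD O) i ℓ.1 (P022D.Fm.uP ℓ))) : ∀ b ∈ HS O M i S, Commute e b := fun b hb =>
  Algebra.commute_of_mem_adjoin_of_forall_mem_commute hb (by
    rintro _ ⟨ℓ, k, rfl | rfl⟩
    exacts [(h ℓ k).1, (h ℓ k).2])

theorem HS_T (ℓ : PA M) : ∀ b ∈ HS O M i S, Commute (T2 O (RD O) i ℓ.1 (P022D.Fm.uP ℓ)) b :=
  HS_com fun ℓ' _ => ⟨T2_comm i ℓ.2.1 ℓ'.2.1 (uP_coe ℓ) (uP_coe ℓ'), T2_S2_comm ..⟩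

theorem HS_S (p : ℕ) (u : (ZMod M)ˣ) : ∀ b ∈ HS O M i S, Commute (S2 O (RD O) i p u) b :=
  HS_com fun ℓ' _ => ⟨(T2_S2_comm ..).symm, S2_comm ..⟩

theorem HS_comm : ∀ a ∈ HS O M i S, ∀ b ∈ HS O M i S, a * b = b * a := fun a ha b hb =>
  HS_com (fun ℓ _ => ⟨(HS_T ℓ a ha).symm, (HS_S _ _ a ha).symm⟩) b hb

theorem HS_rD (g : GM M) : ∀ b ∈ HS O M i S, Commute (P022D.Fm.rD O g) b :=
  HS_com fun ℓ _ => ⟨LinearMap.ext (rt_T2 g i _ _), LinearMap.ext (rt_S2 g i _ _)⟩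

theorem HS_rt {b : Module.End O (P022D.Fm.AM O M)} (hb : b ∈ HS O M i S) (g : GM M) (w : P022D.Fm.AM O M) :
    rt O (RD O) g (b w) = b (rt O (RD O) g w) := LinearMap.congr_fun (HS_rD g b hb) w

theorem HS_mem {N : Submodule O (P022D.Fm.AM O M)}
    (h : ∀ ℓ : PA M, ℓ.1 ∉ S → ∀ v ∈ N, T2 O (RD O) i ℓ.1 (P022D.Fm.uP ℓ) v ∈ N ∧
      S2 O (RD O) i ℓ.1 (P022D.Fm.uP ℓ) v ∈ N) : ∀ b ∈ HS O M i S, ∀ v ∈ N, b v ∈ N := fun b hb => by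
  induction hb using Algebra.adjoin_induction with
  | mem x hx =>
    obtain ⟨ℓ, k, rfl | rfl⟩ := hx
    exacts [fun v hv => (h ℓ k v hv).1, fun v hv => (h ℓ k v hv).2]
  | algebraMap r => exact fun v hv => N.smul_mem r hv
  | add x y _ _ a b => exact fun v hv => N.add_mem (a v hv) (b v hv)
  | mul x y _ _ a b => exact fun v hv => a _ (b v hv)

theorem HS_le (N : ℕ) : HS O M i S ≤ P022D.Fm.HA O M N i := Algebra.adjoin_le (by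
  rintro _ ⟨ℓ, -, rfl | rfl⟩
  exacts [Algebra.subset_adjoin (Or.inl ⟨_, bw_T ℓ⟩), Algebra.subset_adjoin (Or.inl ⟨_, bw_S ℓ⟩)])

theorem HS_XD (hM : Odd M) : ∀ b ∈ HS O M i S, ∀ v ∈ XD O M i, b v ∈ XD O M i :=
  HS_mem fun ℓ _ => (All.hkv O M i ℓ.1 (P022D.Fm.uP ℓ) hM ℓ.2.1 (ne2 ℓ) (uP_coe ℓ)).2.2

theorem fin_red (hM : Odd M) (hπ : Unif π) [Finite (O ⧸ Ideal.span {π})] (k : ℕ) :
    ∃ s : Set (L2 O M k), s.Finite ∧ ∀ w : L2 O M k, ∃ a ∈ s, ∃ y, w = a + π • y := by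
  have h1 : Finite (Fil2 M k π) := by
    have hV : Module.IsTorsionBySet O (Fil2 M k π) (Ideal.span {π} : Ideal O) := fun v a => by
      obtain ⟨c, hc⟩ := Ideal.mem_span_singleton'.1 a.2
      refine Subtype.ext ?_
      change (a : O) • (v : FT M (RR π)) = 0
      rw [← hc, mul_smul, Dv.smul_self, smul_zero]
    let _ := hV.module
    have _ : IsScalarTower O (O ⧸ Ideal.span {π}) (Fil2 M k π) := hV.isScalarTower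
    have : Module.Finite O (Fil2 M k π) := Module.Finite.iff_fg.2 (sturm O M k π hM hπ).2.2
    have : Module.Finite (O ⧸ Ideal.span {π}) (Fil2 M k π) :=
      Module.Finite.of_restrictScalars_finite O _ _
    exact Module.finite_of_finite (O ⧸ Ideal.span {π})
  choose c hc hc' using fun x : Fil2 M k π => x.2
  refine ⟨Set.range fun x => ⟨c x, hc x⟩, Set.finite_range _, fun w => ?_⟩
  let x : Fil2 M k π := ⟨_, w, w.2, rfl⟩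
  obtain ⟨y, hy⟩ := (Tr.red_eq_zero (ϖ := π) (y := (w : FT M (AA O)) - c x)).1 (by
    rw [map_sub, sub_eq_zero]
    exact (hc' x).symm)
  exact ⟨_, ⟨x, rfl⟩, ⟨y, Tr.L2_sat hM.pos hπ.ne (hy ▸ sub_mem w.2 (hc x))⟩,
    Subtype.ext (by rw [Submodule.coe_add, Submodule.coe_smul, ← hy, add_sub_cancel])⟩

theorem tors (hM : Odd M) (h3 : 3 ≤ M) (hπ : Unif π) {v : P022D.Fm.AM O M} (hv : v ∈ XD O M i)
    (hn : ∃ j : ℕ, (2 : O) ∣ π ^ j) : ∃ j : ℕ, π ^ j • v = 0 := by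
  obtain ⟨n, h⟩ := ((All.div O M hM h3).2.2.2.1 i v hv).1
  obtain ⟨j, hj⟩ := hn
  obtain ⟨c, hc⟩ := pow_dvd_pow_of_dvd hj n
  exact ⟨j * n, by rw [pow_mul, hc, mul_comm, mul_smul, h, smul_zero]⟩

/-- **finite orbits** -/
theorem orb (hM : Odd M) (h3 : 3 ≤ M) (hπ : Unif π) [Finite (O ⧸ Ideal.span {π})]
    (hn : ∃ j : ℕ, (2 : O) ∣ π ^ j) {v : P022D.Fm.AM O M} (hv : v ∈ XD O M i) :
    ∃ N : Submodule O (P022D.Fm.AM O M), Finite N ∧ v ∈ N ∧ N ≤ XD O M i ∧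
      (∀ g, ∀ w ∈ N, rt O (RD O) g w ∈ N) ∧ ∀ ℓ : PA M, ∀ w ∈ N,
        T2 O (RD O) i ℓ.1 (P022D.Fm.uP ℓ) w ∈ N ∧ S2 O (RD O) i ℓ.1 (P022D.Fm.uP ℓ) w ∈ N := by
  haveI : NeZero M := ⟨hM.pos.ne'⟩
  obtain ⟨n, h0⟩ := tors hM h3 hπ hv hn
  have hϖ : π ^ n ≠ 0 := fun e => pow_ne_zero n (Dv.j_ne hπ.ne) (by rw [← map_pow, e, map_zero])
  obtain ⟨x, hx, rfl⟩ := (((All.div O M hM h3).2.2.1 i _ hϖ).2 v).1 ⟨hv, h0⟩
  obtain ⟨s, hs, h⟩ := Ser.ex_s hϖ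
  obtain ⟨k', e, hk⟩ := ((vs2 O M s _ hM hs (Ser.d2 h 1)).1 (i + 1) x).1 hx.1
  obtain ⟨j, j1, j2, j3⟩ := Ser.big k' s i
  obtain ⟨w, hw, rfl⟩ := ((vs1 O M s _ hM hs (Ser.d2 h 2)).1 _ _ j2 j3).2 hk
  have j4 := j3.symm.trans e
  obtain ⟨t, rfl⟩ := (Nat.modEq_iff_exists_eq_add j1).1 (Nat.ModEq.add_right_cancel' 1 j4).symm
  let φ : L2 O M (i + 2 ^ s * t + 1) →ₗ[O] P022D.Fm.AM O M :=
    (ml O M (dv (π ^ n))) ∘ₗ (red M (π ^ n)).toLinearMap ∘ₗ (L2 O M _).subtype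
  obtain ⟨a, a1, a2⟩ := fin_red hM hπ (i + 2 ^ s * t + 1)
  have hf := P022D.Fm.Pj.fin_pow π n _ a a1 a2 φ fun w => by
    change π ^ n • ml O M (dv (π ^ n)) (red M (π ^ n) w) = 0
    rw [← map_smul, Dv.smul_self, map_zero]
  have b : ∀ g, ∀ w ∈ LinearMap.range φ ⊓ XD O M i,
      rt O (RD O) g w ∈ LinearMap.range φ ⊓ XD O M i := by
    rintro g _ ⟨⟨y, rfl⟩, hy⟩
    exact ⟨⟨⟨_, Tr.L2_rt y.2 g⟩, rfl⟩, ((All.div O M hM h3).2.2.2.1 i _ hy).2.1 g⟩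
  refine ⟨LinearMap.range φ ⊓ XD O M i, (hf.subset fun _ h => h.1).to_subtype,
    ⟨⟨⟨w, hw⟩, rfl⟩, hv⟩, inf_le_right, b, fun ℓ u hu => ⟨?_, Ser.S2_mem b i _ _ hu⟩⟩
  obtain ⟨⟨y, rfl⟩, hy⟩ := hu
  have ho : Odd ℓ.1 := ℓ.2.1.odd_of_ne_two (ne2 ℓ)
  have hT := fun i => P022D.V.hk O M i ℓ.1 (P022D.Fm.uP ℓ) hM ℓ.2.1 (uP_coe ℓ)
  refine ⟨⟨⟨T2 O _ (i + 2 ^ s * t) ℓ.1 (P022D.Fm.uP ℓ) y, ⟨?_, ?_⟩⟩, ?_⟩,
    ((All.hkv O M i ℓ.1 (P022D.Fm.uP ℓ) hM ℓ.2.1 (ne2 ℓ) (uP_coe ℓ)).2.2 _ hy).1⟩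
  · change (1 + ep O (AA O) M _) (T2 O (AA O) _ _ _ _) ∈ L O M _
    rw [Ser.T2_plus]
    exact hT _ _ y.2.1
  · change (1 - ep O (AA O) M _) (T2 O (AA O) _ _ _ _) ∈ L O M _
    rw [Ser.T2_minus _ ho]
    exact hT _ _ y.2.2
  · obtain ⟨r, rfl⟩ := Nat.exists_eq_add_of_le' (le_trans one_le_two hs)
    change ml O M (dv (π ^ n)) (red M (π ^ n) (T2 O (AA O) _ ℓ.1 (P022D.Fm.uP ℓ) y)) =
      T2 O (RD O) i ℓ.1 (P022D.Fm.uP ℓ) (ml O M (dv (π ^ n)) (red M (π ^ n) y))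
    generalize (y : FT M (AA O)) = z
    rw [← Ser.mT2, Ser.red_ml, Ser.red_ml, Ser.mT2, Ser.T2_eq, Ser.T2_eq, Ser.kill' h ho,
      show 2 ^ (r + 1) * t = 2 * (2 ^ r * t) by ring, Ser.pw_add]

variable (O M i) in
/-- the operators which define the primary part -/
def fo (a : Gen M → O) (S : Finset ℕ) :
    {ℓ : PA M // ℓ.1 ∉ S} ⊕ {ℓ : PA M // ℓ.1 ∉ S} → Module.End O (P022D.Fm.AM O M) :=
  Sum.elim (fun ℓ => P022D.Fm.bw O M i (wT ℓ.1) - algebraMap O _ (a (Sum.inl ℓ.1)))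
    fun ℓ => P022D.Fm.bw O M i (wS ℓ.1) - algebraMap O _ (a (Sum.inr ℓ.1))

variable {a : Gen M → O}

theorem ni_iff {v : P022D.Fm.AM O M} : P022D.Fm.Pj.Ni (fo O M i a S) v ↔ v ∈ P022D.Fm.Pm (P022D.Fm.bw O M i) a S := by
  simp only [P022D.Fm.Pm, Submodule.mem_iInf, Submodule.mem_inf, P022D.Fm.mem_Nl]
  refine ⟨fun h ℓ k => ⟨h (Sum.inl ⟨ℓ, k⟩), h (Sum.inr ⟨ℓ, k⟩)⟩, fun h g => ?_⟩
  rcases g with ℓ | ℓ
  exacts [(h ℓ.1 ℓ.2).1, (h ℓ.1 ℓ.2).2]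

theorem fo_mem (g) : fo O M i a S g ∈ HS O M i S := by
  rcases g with ℓ | ℓ
  · exact sub_mem (Algebra.subset_adjoin ⟨ℓ.1, ℓ.2, Or.inl (bw_T _)⟩) (Subalgebra.algebraMap_mem _ _)
  · exact sub_mem (Algebra.subset_adjoin ⟨ℓ.1, ℓ.2, Or.inr (bw_S _)⟩) (Subalgebra.algebraMap_mem _ _)

/-- the primary part is stable under everything which commutes with the Hecke operators -/
theorem Pm_map {e : Module.End O (P022D.Fm.AM O M)} (h : ∀ b ∈ HS O M i S, Commute e b) {v : P022D.Fm.AM O M}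
    (hv : v ∈ P022D.Fm.Pm (P022D.Fm.bw O M i) a S) : e v ∈ P022D.Fm.Pm (P022D.Fm.bw O M i) a S :=
  ni_iff.1 fun g => (ni_iff.2 hv g).imp fun k hk => by
    rw [← Module.End.mul_apply, ← (h _ (pow_mem (fo_mem g) k)).eq, Module.End.mul_apply, hk,
      map_zero]

variable (hM : Odd M) (h3 : 3 ≤ M) (hπ : Unif π) [Finite (O ⧸ Ideal.span {π})]
  (hn : ∃ j : ℕ, (2 : O) ∣ π ^ j)
include hM h3 hπ hn

variable (i a S) in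
/-- **the projector** -/
theorem exists_proj : ∃ e : XD O M i →ₗ[O] P022D.Fm.AM O M, (∀ v, e v ∈ XD O M i ⊓ P022D.Fm.Pm (P022D.Fm.bw O M i) a S) ∧
    (∀ v : XD O M i, (v : P022D.Fm.AM O M) ∈ P022D.Fm.Pm (P022D.Fm.bw O M i) a S → e v = v) ∧
    ∀ s : Finset (XD O M i), ∃ h ∈ HS O M i S, ∀ v ∈ s, e v = h v := by
  obtain ⟨e, a1, a2, a3⟩ := P022D.Fm.Pj.proj (f := fo O M i a S) HS_comm fo_mem (XD O M i) fun v hv => by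
    obtain ⟨N, b1, b2, -, -, b3⟩ := orb hM h3 hπ hn hv
    exact ⟨N, b1, b2, HS_mem fun ℓ _ => b3 ℓ⟩
  refine ⟨e, fun v => ⟨?_, ni_iff.1 (a1 v)⟩, fun v h => a2 v (ni_iff.2 h), a3⟩
  obtain ⟨h, hh, k⟩ := a3 {v}
  rw [k v (Finset.mem_singleton_self v)]
  exact HS_XD hM h hh _ v.2

/-- the projector on two vectors -/
theorem two {u v : P022D.Fm.AM O M} (hu : u ∈ XD O M i) (hv : v ∈ XD O M i ⊓ P022D.Fm.Pm (P022D.Fm.bw O M i) a S) :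
    ∃ h ∈ HS O M i S, h u ∈ XD O M i ⊓ P022D.Fm.Pm (P022D.Fm.bw O M i) a S ∧ h v = v := by
  classical
  obtain ⟨e, a1, a2, a3⟩ := exists_proj i S a hM h3 hπ hn
  obtain ⟨h, hh, k⟩ := a3 {⟨u, hu⟩, ⟨v, hv.1⟩}
  exact ⟨h, hh, k ⟨u, hu⟩ (by simp) ▸ a1 _, (k ⟨v, hv.1⟩ (by simp)).symm.trans (a2 _ hv.2)⟩

/-- **norms** inside the primary part -/
theorem nrm [NeZero M] {c : O} (hc : c ≠ 0) (H : Subgroup (GM M)) (s : Finset (GM M))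
    (hs : ∀ h, h ∈ s ↔ h ∈ H) (χ : GM M → O) (h1 : χ 1 = 1)
    (hm : ∀ h ∈ H, ∀ h' ∈ H, χ (h * h') = χ h * χ h') {v : P022D.Fm.AM O M}
    (hv : v ∈ XD O M i ⊓ P022D.Fm.Pm (P022D.Fm.bw O M i) a S) (h0 : c • v = 0) (he : v ∈ Eg O (RD O) H χ) :
    ∃ u ∈ XD O M i ⊓ P022D.Fm.Pm (P022D.Fm.bw O M i) a S, c • u = 0 ∧ v = ∑ h ∈ s, χ h⁻¹ • rt O (RD O) h u := by
  have d := ((All.div O M hM h3).2.2.1 i c hc).2
  obtain ⟨x, hx, rfl⟩ := (d v).1 ⟨hv.1, h0⟩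
  obtain ⟨y, hy, e⟩ := (All.nrm O M i c hM h3 hc).2 H s hs χ h1 hm x ⟨hx, fun h hh =>
    (All.div O M hM h3).1 c hc (by rw [map_smul, ← he h hh]; rfl)⟩
  obtain ⟨b1, b2⟩ := (d _).2 ⟨y, hy, rfl⟩
  obtain ⟨h, hh, k1, k2⟩ := two hM h3 hπ hn b1 hv
  refine ⟨_, k1, by rw [← map_smul, b2, map_zero], ?_⟩
  rw [← k2]
  nth_rewrite 1 [e]
  rw [map_sum, map_sum]
  exact Finset.sum_congr rfl fun g _ => by rw [map_smul, map_smul, HS_rt hh]; rfl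

/-- the primary part is divisible -/
theorem dv0 {c : O} (hc : c ≠ 0) {v : P022D.Fm.AM O M} (hv : v ∈ XD O M i ⊓ P022D.Fm.Pm (P022D.Fm.bw O M i) a S) :
    ∃ u ∈ XD O M i ⊓ P022D.Fm.Pm (P022D.Fm.bw O M i) a S, v = c • u := by
  obtain ⟨u, hu, e⟩ := ((All.div O M hM h3).2.2.1 i c hc).1 v hv.1
  obtain ⟨h, hh, k1, k2⟩ := two hM h3 hπ hn hu hv
  exact ⟨_, k1, by rw [← map_smul, ← e, k2]⟩

omit [Finite (O ⧸ Ideal.span {π})] hπ hn in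
theorem rt_mem (g : GM M) {v : P022D.Fm.AM O M} (hv : v ∈ XD O M i ⊓ P022D.Fm.Pm (P022D.Fm.bw O M i) a S) :
    rt O (RD O) g v ∈ XD O M i ⊓ P022D.Fm.Pm (P022D.Fm.bw O M i) a S :=
  ⟨((All.div O M hM h3).2.2.2.1 i v hv.1).2.1 g, Pm_map (HS_rD g) hv.2⟩

/-- **the eigenspaces of the primary part are divisible** -/
theorem dvE {c : O} (hc : c ≠ 0) (H : Subgroup (GM M)) (χ : GM M → O) (h1 : χ 1 = 1)
    (hm : ∀ h ∈ H, ∀ h' ∈ H, χ (h * h') = χ h * χ h') {v : P022D.Fm.AM O M}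
    (hv : v ∈ XD O M i ⊓ P022D.Fm.Pm (P022D.Fm.bw O M i) a S) (he : v ∈ Eg O (RD O) H χ) :
    ∃ u ∈ XD O M i ⊓ P022D.Fm.Pm (P022D.Fm.bw O M i) a S, u ∈ Eg O (RD O) H χ ∧ v = c • u := by
  classical
  haveI : NeZero M := ⟨hM.pos.ne'⟩
  have := Fintype.ofFinite (GM M)
  obtain ⟨n, h0⟩ := ((All.div O M hM h3).2.2.2.1 i v hv.1).1
  obtain ⟨u, hu, -, e⟩ := nrm hM h3 hπ hn (Dv.two_pow_ne n) H (Finset.univ.filter (· ∈ H))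
    (by simp) χ h1 hm hv h0 he
  obtain ⟨w, hw, rfl⟩ := dv0 hM h3 hπ hn hc hu
  refine ⟨∑ h ∈ Finset.univ.filter (· ∈ H), χ h⁻¹ • rt O (RD O) h w,
    Submodule.sum_mem _ fun g _ => Submodule.smul_mem _ _ (rt_mem hM h3 g hw), fun g hg => ?_, ?_⟩
  · rw [map_sum, Finset.smul_sum]
    refine Finset.sum_bij (fun h _ => g * h) (fun h hh => ?_) (fun _ _ _ _ e => mul_left_cancel e)
      (fun h hh => ⟨g⁻¹ * h, ?_, mul_inv_cancel_left g h⟩) fun h hh => ?_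
    · simpa using H.mul_mem hg (by simpa using hh)
    · simpa using H.mul_mem (H.inv_mem hg) (by simpa using hh)
    · have hh' : h ∈ H := by simpa using hh
      rw [map_smul, rt_rt, smul_smul, ← hm g hg _ (H.inv_mem (H.mul_mem hg hh')), mul_inv_rev]
      have : χ (g * (h⁻¹ * g⁻¹)) = χ h⁻¹ := by
        rw [hm g hg _ (H.mul_mem (H.inv_mem hh') (H.inv_mem hg)),
          hm _ (H.inv_mem hh') _ (H.inv_mem hg), mul_left_comm, ← hm g hg _ (H.inv_mem hg),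
          mul_inv_cancel, h1, mul_one]
      rw [this]
  · rw [e, Finset.smul_sum]
    exact Finset.sum_congr rfl fun g _ => by rw [map_smul, smul_comm]

end Vale.Agent.P022E.Fm.Pj
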