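import Vale.Agent.P022E.Fm.NmD
import Vale.Agent.P022E.Fm.Prj
import Vale.Agent.P022D.Rep.Sec
import Vale.Agent.P022E.Ns

/-!
# P022D, forms side: invariants are norms (the step HIGN)
-/

set_option linter.all false

open scoped MatrixGroups

noncomputable section

namespace Vale.Agent.P022E.Fm.Nm

open Classical Vale.Agent.P022 Vale.Agent.P022D.V Vale.Agent.P022E.V Vale.Agent.P027M.M
open Vale.Agent.P022D.Fm.Ac Vale.Agent.P022E.Fm.Ac Vale.Agent.P022D.Fm.Pj Vale.Agent.P022E.Fm.Pj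

theorem sum_zm {A : Type} [AddCommMonoid A] (p : ℕ) [NeZero p] (f : ℕ → A) :
    ∑ j ∈ Finset.range p, f j = ∑ x : Multiplicative (ZMod p), f x.toAdd.val :=
  Finset.sum_nbij' (fun j => Multiplicative.ofAdd (j : ZMod p)) (fun x => x.toAdd.val)
    (fun _ _ => Finset.mem_univ _) (fun x _ => Finset.mem_range.2 (ZMod.val_lt _))
    (fun j hj => ZMod.val_cast_of_lt (Finset.mem_range.1 hj))
    (fun x _ => congrArg Multiplicative.ofAdd (ZMod.natCast_zmod_val x.toAdd))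
    fun j hj => congrArg f (ZMod.val_cast_of_lt (Finset.mem_range.1 hj)).symm

/-- the diagonal conditions -/
def Hd (M N K n : ℕ) : Subgroup (GM M) where
  carrier := {g | ∃ A D, P022E.Fm.Pj.Dp M N K n A D ∧ g = dg A D}
  one_mem' := ⟨1, 1, P022E.Fm.Pj.Dp.one, dg_one.symm⟩
  mul_mem' := by
    rintro _ _ ⟨A, D, h, rfl⟩ ⟨A', D', h', rfl⟩
    exact ⟨_, _, h.mul h', dg_mul ..⟩
  inv_mem' := by
    rintro _ ⟨A, D, h, rfl⟩
    exact ⟨_, _, h.inv, dg_inv ..⟩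

theorem dg_inj {M : ℕ} {a d a' d' : (ZMod M)ˣ} (h : dg a d = dg a' d') : a = a' ∧ d = d' :=
  ⟨Units.ext (congrArg (fun g : GM M => (g : Matrix (Fin 2) (Fin 2) (ZMod M)) 0 0) h),
    Units.ext (congrArg (fun g : GM M => (g : Matrix (Fin 2) (Fin 2) (ZMod M)) 1 1) h)⟩

theorem cg_prod {M N : ℕ} {ι : Type} (s : Finset ι) {a d : ι → (ZMod M)ˣ}
    (h : ∀ i, P022D.V.Cg M N (a i) (d i)) :
    P022D.V.Cg M N (∏ i ∈ s, a i : (ZMod M)ˣ) (∏ i ∈ s, d i : (ZMod M)ˣ) := by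
  induction s using Finset.induction_on with
  | empty => exact cg_refl _
  | insert j s hj ih =>
    rw [Finset.prod_insert hj, Finset.prod_insert hj, Units.val_mul, Units.val_mul]
    exact cg_mul2 (h j) ih

theorem pr_sc {M l : ℕ} [Fact l.Prime] (hl : l ∣ M) (c : (ZMod M)ˣ) :
    (QuotientGroup.mk (pr hl (dg c c)) : P022D.Rep.PG (ZMod l)) = 1 := by
  refine (QuotientGroup.eq_one_iff _).2
    ⟨Units.map (ZMod.castHom hl (ZMod l)).toMonoidHom c, trivial, Units.ext ?_⟩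
  ext i j
  rw [P022D.V.pr_coe, dg_coe]
  show (P022D.Rep.tG _ _ : GL (Fin 2) (ZMod l)).1 i j = _
  rw [P022D.Rep.tG_coe]
  fin_cases i <;> fin_cases j <;> simp

variable {O F : Type} [CommRing O] [Field F] [Co O] {U : Su O F} {M n : ℕ}
  [hC : ∀ l : U.L.C, Fact l.1.Prime]

omit hC in
theorem TQ_Hd {g : GM M} (hg : g ∈ U.TQ M n) : g ∈ Hd M U.N (M / U.NC) n := by
  obtain ⟨a, d, h1, h2, rfl⟩ := hg
  exact ⟨_, _, ⟨1, a, d, cg_refl _, h1, h2, (one_mul _).symm, (one_mul _).symm⟩, rfl⟩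

omit hC in
theorem sc_Hd {c : (ZMod M)ˣ} (hc : P022D.V.Cg M (M / U.NC) c 1) : dg c c ∈ Hd M U.N (M / U.NC) n :=
  ⟨_, _, ⟨c, 1, 1, hc, cg_refl _, cg_refl _, by simp, by simp⟩, rfl⟩

omit hC in
theorem Hd_eq {g : GM M} (hg : g ∈ Hd M U.N (M / U.NC) n) :
    ∃ c : (ZMod M)ˣ, P022D.V.Cg M (M / U.NC) c 1 ∧ ∃ k ∈ U.TQ M n, g = dg c c * k := by
  obtain ⟨_, _, ⟨c, a, d, h1, h2, h3, rfl, rfl⟩, rfl⟩ := hg
  exact ⟨c, h1, _, ⟨a, d, h2, h3, rfl⟩, (dg_mul ..).symm⟩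

theorem emP_sc (h : P022E.Fm.Ac.Lk U M) (g : ∀ l : U.L.C, GL (Fin 2) (ZMod l.1))
    (hg : ∀ l, (QuotientGroup.mk (g l) : P022D.Rep.PG (ZMod l.1)) = 1) :
    h.emP g ∈ Hd M U.N (M / U.NC) n := by
  show g ∈ (Hd M U.N (M / U.NC) n).comap h.emP
  rw [← Finset.noncommProd_mulSingle g]
  refine Subgroup.noncommProd_mem _ _ fun l _ => ?_
  obtain ⟨z, -, hz⟩ := (QuotientGroup.eq_one_iff _).1 (hg l)
  rw [Subgroup.mem_comap, h.emP_single, ← hz]
  exact (P022D.Rep.emb_t (h.sp l) z z) ▸ sc_Hd (Ac.cg_dvd (h.dl l) (P022D.Rep.lamU_cg _ z))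

section sec

variable (h : P022E.Fm.Ac.Lk U M) {ι : Type} [Fintype ι] (p : ι → ℕ) (a d : ι → (ZMod M)ˣ)

/-- the diagonal part of the section -/
def sA (k : ι → ℕ) : GM M := dg (∏ s, a s ^ k s) (∏ s, d s ^ k s)

/-- the part at the primes of `C` -/
def sB (γ : ∀ l, P022D.Rep.PG (ZMod (l : U.L.C).1)) : GM M := h.emP fun l => (γ l).out

/-- the section -/
def sec (x : (∀ s, Multiplicative (ZMod (p s))) × ∀ l, P022D.Rep.PG (ZMod (l : U.L.C).1)) : GM M :=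
  sA a d (fun s => (x.1 s).toAdd.val) * sB h x.2

omit hC in
theorem sA_add (k k' : ι → ℕ) : sA a d (k + k') = sA a d k * sA a d k' := by
  simp only [sA, dg_mul, Pi.add_apply, pow_add, Finset.prod_mul_distrib]

variable {p a d}

omit hC in
theorem sA_cg (h1 : ∀ s, P022D.V.Cg M U.N (a s) (d s)) (k : ι → ℕ) :
    P022D.V.Cg M U.N (∏ s, a s ^ k s : (ZMod M)ˣ) (∏ s, d s ^ k s : (ZMod M)ˣ) :=
  cg_prod _ fun s => cg_pow (h1 s) _

omit hC in
theorem sA_K (h1 : ∀ s, P022D.V.Cg M U.N (a s) (d s)) (h2 : ∀ s, P022D.V.Cg M U.NC (a s) 1) (k : ι → ℕ) :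
    sA a d k ∈ Kq M U.NC := by
  have e : P022D.V.Cg M U.NC (∏ s, a s ^ k s : (ZMod M)ˣ) 1 := by
    simpa using cg_prod (d := fun _ => 1) Finset.univ fun s => P022E.Fm.Pj.cgp (h2 s) (k s)
  exact P022E.Fm.Ac.dg_Kq e (cg_trans (cg_symm (Ac.cg_dvd (Dvd.intro_left _ rfl) (sA_cg h1 k))) e)

omit hC in
theorem sA_Hd (h3 : ∀ s, dg (a s ^ p s) (d s ^ p s) ∈ U.TQ M n) (c : ι → ℕ) :
    sA a d (fun s => p s * c s) ∈ Hd M U.N (M / U.NC) n := by
  have key : ∀ t : Finset ι, dg (∏ s ∈ t, a s ^ (p s * c s)) (∏ s ∈ t, d s ^ (p s * c s)) ∈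
      Hd M U.N (M / U.NC) n := by
    intro t
    induction t using Finset.induction_on with
    | empty => exact ⟨1, 1, P022E.Fm.Pj.Dp.one, rfl⟩
    | insert j t hj ih =>
      rw [Finset.prod_insert hj, Finset.prod_insert hj, ← dg_mul, pow_mul, pow_mul, ← dg_pow2]
      exact mul_mem (pow_mem (TQ_Hd (h3 j)) _) ih
  exact key _

theorem Hd_comm {g : GM M} (hg : g ∈ Hd M U.N (M / U.NC) n)
    (x : (∀ s, Multiplicative (ZMod (p s))) × ∀ l, P022D.Rep.PG (ZMod (l : U.L.C).1)) :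
    Commute g (sec h p a d x) := by
  obtain ⟨c, -, k, hk, rfl⟩ := Hd_eq hg
  refine Commute.mul_left (dg_center _ _) (Commute.mul_right ?_ ?_)
  · obtain ⟨a', d', -, -, rfl⟩ := hk
    exact dg_comm ..
  · exact P022E.Fm.Ac.kq_comm h.eq.dvd (P022D.Rep.Kq_mono (Dvd.intro_left _ rfl) (P022E.Fm.Ac.TQ_Kq hk)) (h.emP_Kq _)

theorem isSec [∀ s, NeZero (p s)] (h1 : ∀ s, P022D.V.Cg M U.N (a s) (d s))
    (h2 : ∀ s, P022D.V.Cg M U.NC (a s) 1) (h3 : ∀ s, dg (a s ^ p s) (d s ^ p s) ∈ U.TQ M n)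
    (h4 : ∀ k : ι → ℕ, sA a d k ∈ U.TQ M n → ∀ s, p s ∣ k s) :
    P022D.Rep.Sec (Hd M U.N (M / U.NC) n) (sec h p a d) where
  nrm x g hg := by
    rw [mul_assoc, (Hd_comm h hg x).eq, inv_mul_cancel_left]
    exact hg
  mul x y := by
    have c1 : ∀ k γ, Commute (sA a d k) (sB h γ) := fun k γ =>
      (P022E.Fm.Ac.kq_comm h.eq.dvd (sA_K h1 h2 k) (h.emP_Kq _))
    have e1 : sA a d (fun s => (x.1 s).toAdd.val) * sA a d (fun s => (y.1 s).toAdd.val) =
        sA a d (fun s => ((x * y).1 s).toAdd.val) *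
          sA a d (fun s => p s * (((x.1 s).toAdd.val + (y.1 s).toAdd.val) / p s)) := by
      rw [← sA_add, ← sA_add]
      congr 1
      funext s
      show _ + _ = ((x.1 s).toAdd + (y.1 s).toAdd).val + _
      rw [ZMod.val_add, Nat.mod_add_div]
    have e2 : (sB h (x * y).2)⁻¹ * (sB h x.2 * sB h y.2) ∈ Hd M U.N (M / U.NC) n := by
      rw [sB, sB, sB, ← map_mul, ← map_inv, ← map_mul]
      refine emP_sc h _ fun l => ?_
      show QuotientGroup.mk' _ ((x.2 l * y.2 l).out⁻¹ * ((x.2 l).out * (y.2 l).out)) = 1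
      rw [map_mul, map_mul, map_inv, QuotientGroup.mk'_apply, QuotientGroup.mk'_apply,
        QuotientGroup.mk'_apply, QuotientGroup.out_eq', QuotientGroup.out_eq',
        QuotientGroup.out_eq', inv_mul_cancel]
    rw [sec, sec, sec, (c1 _ _).symm.mul_mul_mul_comm, e1, mul_inv_rev, mul_assoc, mul_assoc,
      inv_mul_cancel_left, ← mul_assoc, (c1 _ _).inv_right.symm.eq, mul_assoc]
    exact mul_mem (sA_Hd h3 _) e2
  inj x hx := by
    have e2 : ∀ l, x.2 l = 1 := fun l => by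
      obtain ⟨c, hc, k, hk, e⟩ := Hd_eq hx
      have hl := (h.lC l).trans h.dC
      have e' := congrArg (pr hl) e
      rw [sec, map_mul, map_mul, (h.mem_K hl).1 (P022D.Rep.Kq_mono (h.lC l) (sA_K h1 h2 _)), one_mul, sB,
        h.pr_emP, (h.mem_K hl).1 (P022D.Rep.Kq_mono ((h.lC l).mul_left _) (P022E.Fm.Ac.TQ_Kq hk)), mul_one] at e'
      rw [← QuotientGroup.out_eq' (x.2 l), e', pr_sc]
    have e3 : sB h x.2 ∈ Hd M U.N (M / U.NC) n :=
      emP_sc h _ fun l => (QuotientGroup.out_eq' _).trans (e2 l)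
    obtain ⟨c, hc, k, hk, e⟩ := Hd_eq ((Subgroup.mul_mem_cancel_right _ e3).1 hx)
    have e4 : dg c c ∈ Kq M U.NC := by
      rw [← mul_inv_eq_iff_eq_mul.2 e, h.mem_K h.dC, map_mul, map_inv,
        (h.mem_K h.dC).1 (sA_K h1 h2 _),
        (h.mem_K h.dC).1 (P022D.Rep.Kq_mono (Dvd.intro_left _ rfl) (P022E.Fm.Ac.TQ_Kq hk)), inv_one, mul_one]
    have e5 : c = 1 := Units.ext (h.crt hc fun l => Ac.cg_dvd (h.lC l) (e4 0 0))
    rw [e5, dg_one, one_mul] at e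
    refine Prod.ext (funext fun s => ?_) (funext e2)
    have e6 := h4 _ (e ▸ hk) s
    exact (ZMod.natCast_zmod_val (x.1 s).toAdd).symm.trans ((ZMod.natCast_eq_zero_iff _ _).2 e6)

omit hC in
theorem prod_coe {u : ι → U.B M} (hu : ∀ s (w : U.Wb M n), (((u s • w : U.Wb M n) : U.GG M) :
    P022D.Fm.AM O M) = P022D.Fm.rD O (dg (a s) (d s)) (w : U.GG M)) (k : ι → ℕ) (w : U.Wb M n) :
    ((((∏ s, u s ^ k s) • w : U.Wb M n) : U.GG M) : P022D.Fm.AM O M) = P022D.Fm.rD O (sA a d k) (w : U.GG M) := by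
  have k1 : ∀ s (j : ℕ) (w : U.Wb M n), (((u s ^ j • w : U.Wb M n) : U.GG M) : P022D.Fm.AM O M) =
      P022D.Fm.rD O (dg (a s ^ j) (d s ^ j)) (w : U.GG M) := by
    intro s j
    induction j with
    | zero =>
      intro w
      rw [pow_zero, pow_zero, pow_zero, dg_one, rD_one, one_smul]
      rfl
    | succ j ih =>
      intro w
      rw [pow_succ, pow_succ, pow_succ, mul_smul, ih, hu, ← dg_mul, rD_mul]
      rfl
  have key : ∀ (t : Finset ι) (w : U.Wb M n),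
      ((((∏ s ∈ t, u s ^ k s) • w : U.Wb M n) : U.GG M) : P022D.Fm.AM O M) =
        P022D.Fm.rD O (dg (∏ s ∈ t, a s ^ k s) (∏ s ∈ t, d s ^ k s)) (w : U.GG M) := by
    intro t
    induction t using Finset.induction_on with
    | empty =>
      intro w
      rw [Finset.prod_empty, Finset.prod_empty, Finset.prod_empty, dg_one, rD_one, one_smul]
      rfl
    | insert j t hj ih =>
      intro w
      rw [Finset.prod_insert hj, Finset.prod_insert hj, Finset.prod_insert hj, mul_smul, k1, ih,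
        ← dg_mul, rD_mul]
      rfl
  exact key _ w

end sec

end Vale.Agent.P022E.Fm.Nm

namespace Vale.Agent.P022E.Fm.Nm

open Classical Vale.Agent.P022 Vale.Agent.P022D.V Vale.Agent.P022E.V Vale.Agent.P027M.M
open Vale.Agent.P022D.Fm.Ac Vale.Agent.P022E.Fm.Ac Vale.Agent.P022D.Fm.Pj Vale.Agent.P022E.Fm.Pj

variable {O F : Type} [CommRing O] [IsDomain O] [IsDiscreteValuationRing O] [P022D.Core.Coef O] [Co O]
  [Field F] [CharP F 2] {U : Su O F} [hC : ∀ l : U.L.C, Fact l.1.Prime]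

/-- **HIGN** -/
theorem hign (hU : U.Ok) (hW : WHP U) : HIGN U := by
  intro M n hL X hX ι _ p a d u hp hu h1 h2 h3 h4 S t ht w hS hw
  have h := P022E.Fm.Ac.lk_of hU hL
  haveI := h.nz
  haveI : ∀ s, NeZero (p s) := fun s => ⟨hp s⟩
  haveI := P022E.Fm.Pj.finq hU.uni
  haveI := Fintype.ofFinite (GM M)
  obtain ⟨e, e1, e2, e3, e4, e5⟩ := hW M hL
  let ρ : GM M →* Module.End O (P022D.Fm.AM O M) := ⟨⟨P022D.Fm.rD O, rD_one⟩, rD_mul⟩
  let Hm : Subgroup (GM M) :=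
    { carrier := {g | Commute e (ρ g)}
      one_mem' := by
        show Commute e (ρ 1)
        rw [map_one]
        exact Commute.one_right _
      mul_mem' := fun {x y} hx hy => by
        show Commute e (ρ (x * y))
        rw [map_mul]
        exact Commute.mul_right hx hy
      inv_mem' := fun {x} hx => Commute.units_inv_right (u := ρ.toHomUnits x) hx }
  have act : ∀ (γ : ∀ l, U.Gam l) (w : U.Wb M n),
      (((X.E.ρ γ w : U.Wb M n) : U.GG M) : P022D.Fm.AM O M) = P022D.Fm.rD O (sB h γ) (w : U.GG M) := fun γ w =>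
    hX.act _ (h.emP_Kq _) γ (fun l hl => by rw [h.pr_emP, QuotientGroup.out_eq']) w
  have hw' := h.wb.1 w.2
  obtain ⟨v, hv, f1, f2⟩ := (isSec (n := n) h h1 h2 h3 h4).norm ρ (fun _ => (1 : O)) (Hm := Hm)
    (by
      rintro _ ⟨_, _, ⟨c, a, d, -, k2, k3, rfl, rfl⟩, rfl⟩
      exact e5 _ _ (cg_mul2 (cg_refl _) (cg_trans (P022E.Fm.Pj.cgp k2 _) (cg_symm (P022E.Fm.Pj.cgp k3 _)))))
    (fun x => Hm.mul_mem (e5 _ _ (sA_cg h1 _)) (e4 _ (h.emP_Kq _)))
    (fun _ _ _ _ => (one_mul _).symm) (U.GG M ⊓ P022D.Fm.Tor (P022D.Fm.AM O M) U.ϖ ⊓ U.WhP M)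
    (fun g hg v hv => ⟨⟨GG_rD h.odd h.three g v hv.1.1, P022D.Fm.mem_Tor.2 (by
      rw [← map_smul, P022D.Fm.mem_Tor.1 hv.1.2, map_zero])⟩, by
        have k := e1 (ρ g v)
        rwa [← Module.End.mul_apply, (show Commute e (ρ g) from hg).eq, Module.End.mul_apply,
          e2 v hv.2] at k⟩)
    (fun _ _ _ => one_smul _ _) rfl (v := ((w : U.GG M) : P022D.Fm.AM O M))
    ⟨⟨(w : U.GG M).2, hw'.2⟩, hw'.1.1.2⟩
    (fun H' s' hs' _ hm hf => by
      obtain ⟨v, k1, k2, k3⟩ := Pj.nrm h.odd h.three hU.uni (P022E.Fm.Pj.hn2 hU.uni) hU.uni.ne H' s' hs'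
        (fun _ => (1 : O)) rfl (fun _ _ _ _ => (one_mul _).symm) (w : U.GG M).2 hw'.2 hf
      refine ⟨e v, ⟨⟨e3 v k1, P022D.Fm.mem_Tor.2 (by rw [← map_smul, k2, map_zero])⟩, e1 v⟩, ?_⟩
      rw [← e2 _ hw'.1.1.2]
      conv_lhs => rw [k3]
      rw [map_sum]
      refine Finset.sum_congr rfl fun g hg => ?_
      rw [map_smul]
      exact congrArg _ (LinearMap.congr_fun (show Commute e (ρ g) from hm ((hs' g).1 hg)).eq v))
    ((⊤ : Subgroup _).prod S) (Finset.univ ×ˢ t)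
    (fun x => by simp only [Finset.mem_product, Finset.mem_univ, Subgroup.mem_prod,
      Subgroup.mem_top, ht])
    (fun g hg => by
      obtain ⟨c, hc, k, hk, rfl⟩ := Hd_eq hg
      rw [map_mul, Module.End.mul_apply, one_smul]
      exact (congrArg _ ((P022E.Fm.Ac.mem_Zp.1 hw'.1).2.2 k hk)).trans (P022E.Fm.Ac.Wb_cen hU h hc hw'.1 hw'.2))
    (fun x hx => by
      rw [sec, map_mul, Module.End.mul_apply]
      have k1 : ρ (sB h x.2) (w : U.GG M) = (w : U.GG M) :=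
        (act _ w).symm.trans (by rw [hS _ hx.2])
      rw [k1]
      refine (prod_coe hu _ w).symm.trans ?_
      congr 2
      exact Finset.prod_induction _ (fun c : U.B M => c • w = w)
        (fun x y hx hy => by rw [mul_smul, hy, hx]) (one_smul _ _) fun s _ => by
          induction (x.1 s).toAdd.val with
          | zero => rw [pow_zero, one_smul]
          | succ j ih => rw [pow_succ, mul_smul, hw, ih])
  have hz : v ∈ U.Zp M n := by
    refine P022E.Fm.Ac.mem_Zp.2 ⟨fun c hc => ?_, mem_WhP.1 hv.2, fun g hg => (f1 g (TQ_Hd hg)).trans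
      (one_smul _ _)⟩
    obtain ⟨y, hy⟩ := hU.omr _ ((ZMod.val_coe_unit_coprime c).coprime_dvd_right h.dvd)
    rw [eq_add_of_sub_eq hy, add_smul, mul_comm, mul_smul, P022D.Fm.mem_Tor.1 hv.1.2, smul_zero, zero_add]
    exact f1 _ (sc_Hd hc)
  refine ⟨⟨⟨v, hv.1.1⟩, h.wb.2 ⟨hz, hv.1.2⟩⟩, Subtype.ext (Subtype.ext ?_)⟩
  have e6 : (∏ s, ∑ j ∈ Finset.range (p s), u s ^ j) =
      ∑ δ : ∀ s, Multiplicative (ZMod (p s)), ∏ s, u s ^ (δ s).toAdd.val := by
    rw [← Fintype.piFinset_univ, ← Finset.prod_univ_sum (fun _ => Finset.univ)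
      fun s (x : Multiplicative (ZMod (p s))) => u s ^ x.toAdd.val]
    exact Finset.prod_congr rfl fun s _ => sum_zm _ _
  rw [f2, e6, Finset.sum_smul, Finset.sum_product, Submodule.coe_sum, Submodule.coe_sum]
  refine Finset.sum_congr rfl fun δ _ => ?_
  rw [prod_coe hu, Submodule.coe_sum, Submodule.coe_sum, map_sum]
  refine Finset.sum_congr rfl fun γ _ => ?_
  rw [act, sec, map_mul]
  rfl

end Vale.Agent.P022E.Fm.Nm
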