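import Vale.Agent.P022E.Fm.Rows
import Vale.Agent.P022E.Fm.Cen
import Vale.Agent.P022E.Ns

/-!
# P022D, forms side: the two-part of the scalars at a prime of `W`
-/

set_option linter.all false

noncomputable section

namespace Vale.Agent.P022E.Fm.Nz

open Vale.Agent.P022 Vale.Agent.P022.H853 Vale.Agent.P022D.V Vale.Agent.P022E.V Vale.Agent.P027M.M
open Vale.Agent.P022D.G (Inert)

theorem map_one_iff {M A : ℕ} [NeZero M] (h : A ∣ M) (e : (ZMod M)ˣ) :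
    ZMod.unitsMap h e = 1 ↔ P022D.V.Cg M A e 1 := by
  rw [Units.ext_iff, ZMod.unitsMap_val, Units.val_one, ← ZMod.castHom_apply (h := h),
    ← Nat.cast_one (R := ZMod A), Cen.cast_eq]
  exact ⟨Cen.cg_one, fun x => Cen.of_cg h (by simpa using x)⟩

theorem pow_one_of {M l : ℕ} [NeZero M] (hl : l.Prime) (hM : l ∣ M) {u : (ZMod M)ˣ}
    (hu : ∀ A : ℕ, A ∣ M → Nat.Coprime A l → P022D.V.Cg M A u 1) :
    ∃ k : ℕ, u ^ (l ^ k * (l - 1)) = 1 := by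
  have h0 := NeZero.ne M
  have hk := (hl.factorization_pos_of_dvd h0 hM)
  have hc := (Nat.coprime_ordCompl hl h0)
  refine ⟨M.factorization l - 1, Units.ext (Cen.val_ext ?_)⟩
  rw [Units.val_pow_eq_pow_val, ← Nat.totient_prime_pow hl hk]
  refine (Cen.val_pow _ _).trans (Nat.ModEq.trans ?_
    (show 1 ≡ ((1 : (ZMod M)ˣ) : ZMod M).val [MOD M] by
      rw [← ZMod.natCast_eq_natCast_iff]; simp))
  refine Nat.ModEq.of_dvd (Nat.ordProj_mul_ordCompl_eq_self M l).symm.dvd ?_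
  refine (Nat.modEq_and_modEq_iff_modEq_mul (hc.pow_left _)).1 ⟨Nat.ModEq.pow_totient
    ((ZMod.val_coe_unit_coprime u).coprime_dvd_right (Nat.ordProj_dvd M l)), ?_⟩
  have := (Cen.of_cg (Nat.ordCompl_dvd M l) (y := 1)
    (by simpa using hu _ (Nat.ordCompl_dvd M l) hc.symm)).pow (Nat.totient (l ^ M.factorization l))
  rwa [one_pow] at this

variable {O F : Type} [CommRing O] [IsLocalRing O] [Co O] [Field F] [CharP F 2] {U : Su O F}

theorem wdat0 (hU : U.Ok) {M : ℕ} [NeZero M] {t : GQ → U.B M} {d : GQ →* (U.B M)ˣ} (h : U.Op t d)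
    {a : ℕ → ℕ} (ha : U.Ex a) {l : ℕ} (hl : l ∈ U.L.W) (hM : l ∣ M) :
    ∃ e : (ZMod M)ˣ, e ^ 2 ^ a l = 1 ∧ (∀ A : ℕ, A ∣ M → Nat.Coprime A l → P022D.V.Cg M A e 1) ∧
      (∀ k : ℕ, P022D.V.Cg M l ((e ^ k : (ZMod M)ˣ) : ZMod M) 1 → 2 ^ a l ∣ k) ∧
      ∀ v : U.GG M, (((d (U.L.τ l) : U.B M) • v : U.GG M) : P022D.Fm.AM O M) = P022D.Fm.rD O (dg e e) v := by
  have hl' := Finset.mem_union_left U.L.C hl
  obtain ⟨hp, l2⟩ := hU.ok.pr l hl'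
  obtain ⟨hP, hlP⟩ := hU.ok.hP l hl'
  have hT := hU.ok.tm l hl'
  obtain ⟨m, hm, em⟩ := ha l hl
  haveI : NeZero l := ⟨hp.ne_zero⟩
  have h1 : ∀ A : ℕ, (hA : A ∣ M) → Nat.Coprime A l →
      ZMod.unitsMap hA (cyc M (U.L.τ l)) = 1 := fun A hA hc => by
    haveI : NeZero A := ⟨fun e => NeZero.ne M (Nat.eq_zero_of_zero_dvd (e ▸ hA))⟩
    rw [cyc_map]
    exact cyc_inert hp (hp.coprime_iff_not_dvd.1 hc.symm) hP hlP hT.tau
  obtain ⟨k, hk⟩ := pow_one_of hp hM fun A hA hc => (map_one_iff hA _).1 (h1 A hA hc)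
  have el : l - 1 = 2 ^ a l * m := by omega
  have ho : Odd (l ^ k * m) := (hp.odd_of_ne_two l2).pow.mul hm
  have hy : (cyc M (U.L.τ l) ^ 2 ^ a l) ^ (l ^ k * m) = 1 := by
    rw [← pow_mul, ← hk, el]; congr 1; ring
  obtain ⟨c, hc⟩ := pow_of_odd ho hy (a l)
  set p := (cyc M (U.L.τ l) ^ 2 ^ a l) ^ c with hp'
  have po : p ^ (l ^ k * m) = 1 := by rw [hp', ← pow_mul, mul_comm, pow_mul, hy, one_pow]
  have ep : cyc M (U.L.τ l ^ (2 ^ a l * c)) = p := by rw [map_pow, pow_mul]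
  have hi : ∀ j : ℕ, Inert l (U.L.τ l ^ j) := fun j => ⟨_, hP, hlP, pow_mem hT.tau j⟩
  refine ⟨cyc M (U.L.τ l) * p⁻¹, by rw [mul_pow, inv_pow, hc, mul_inv_cancel], fun A hA hc => ?_,
    fun j hj => ?_, fun v => ?_⟩
  · rw [← map_one_iff hA, map_mul, map_inv, hp', map_pow, map_pow, h1 A hA hc]
    simp
  · rw [← map_one_iff hM, map_pow, map_mul, cyc_map] at hj
    haveI := Fact.mk hp
    obtain ⟨g, hg⟩ := IsCyclic.exists_ofOrder_eq_natCard (α := (ZMod l)ˣ)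
    rw [Nat.card_eq_fintype_card, ZMod.card_units, el] at hg
    obtain ⟨i, p', ⟨e', o', h'⟩, eg⟩ := cyc_tau (m := l) (k := 1) (m' := 1) hp (by simp) (by simp)
      hP hlP hT g (Nat.modEq_one)
    have x1 : cyc l (U.L.τ l) ^ (j * (l ^ k * m)) = 1 := by
      have x2 := congrArg (· ^ (l ^ k * m)) hj
      simp only [one_pow] at x2
      rwa [← pow_mul, mul_pow, ← map_pow (ZMod.unitsMap hM), inv_pow, mul_comm j, pow_mul p, po,
        one_pow, inv_one, map_one, mul_one, mul_comm _ j] at x2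
    have x3 : g ^ (j * (l ^ k * m) * e') = 1 := by
      rw [eg, mul_pow, ← pow_mul, mul_comm i, pow_mul, pow_mul, x1, one_pow, one_pow, one_mul,
        mul_comm, pow_mul, h', one_pow]
    have x4 := (dvd_mul_right _ _).trans (hg ▸ orderOf_dvd_of_pow_eq_one x3)
    rw [mul_assoc] at x4
    exact (Nat.Coprime.pow_left _ (Nat.coprime_two_left.2 (ho.mul o'))).dvd_of_dvd_mul_right x4
  · have x1 := h.cn_d_odd hU hp l2 (hi (2 ^ a l * c)) ho (by rw [ep, po]) v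
    have x2 := h.cn_d_inert hp l2 (hi (2 ^ a l * c)) v
    have x3 := h.cn_d_inert hp l2 (s := U.L.τ l) (pow_one (U.L.τ l) ▸ hi 1) v
    rw [x1, ep] at x2
    rw [x3]
    conv_rhs => rw [x2]
    change _ = rt O (RD O) _ (rt O (RD O) _ _)
    rw [rt_rt, dg_mul, inv_mul_cancel_right]

variable [hC : ∀ l : U.L.C, Fact l.1.Prime] {r n : ℕ} {q : Fin r → ℕ}

theorem wdat (hU : U.Ok) (P : Lq U r n q) {a : ℕ → ℕ} (ha : U.Ex a) {l : ℕ} (hl : l ∈ U.L.W) :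
    ∃ e : (ZMod P.M)ˣ, e ^ 2 ^ a l = 1 ∧ (∀ A : ℕ, A ∣ P.M → Nat.Coprime A l → P022D.V.Cg P.M A e 1) ∧
      (∀ k : ℕ, P022D.V.Cg P.M l ((e ^ k : (ZMod P.M)ˣ) : ZMod P.M) 1 → 2 ^ a l ∣ k) ∧
      ∀ w : U.Wb P.M n, ((((P.X.d (U.L.τ l) : U.B P.M) • w : U.Wb P.M n) : U.GG P.M) : P022D.Fm.AM O P.M) =
        P022D.Fm.rD O (dg e e) (w : U.GG P.M) := by
  haveI : NeZero P.M := ⟨P.lv.cn_M_ne hU⟩
  have hl' := Finset.mem_union_left U.L.C hl
  obtain ⟨e, h1, h2, h3, h4⟩ := wdat0 hU P.ok.op ha hl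
    ((P.lv.cn_dvd_M hU (hU.ok.pr l hl').1).2 (Or.inl hl'))
  exact ⟨e, h1, h2, h3, fun w => h4 w⟩

end Vale.Agent.P022E.Fm.Nz
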