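import Vale.Agent.P022E.Fm.NmD
import Vale.Agent.P022E.Ns

/-!
# P022D, forms side: the projector to the Whittaker vectors
-/

set_option linter.all false

noncomputable section

namespace Vale.Agent.P022E.Fm.Nm

open Vale.Agent.P022 Vale.Agent.P027M.M Vale.Agent.P022D.V Vale.Agent.P022E.V

variable {O F : Type} [CommRing O] [Field F] [Co O] {U : Su O F} {M : ℕ}

section av

variable [NeZero M] (hN : U.N ∣ M) (hz : U.z ^ U.N = 1)

/-- the character -/
def ps : AddChar (ZMod M) O := AddChar.zmodChar M (ζ := U.z ^ U.NC) (by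
  obtain ⟨k, rfl⟩ := hN
  rw [← pow_mul, mul_left_comm, pow_mul, hz, one_pow])

theorem wh_iff {v : P022D.Fm.AM O M} : v ∈ U.WhP M ↔
    ∀ x : ZMod M, ps hN hz x • P022D.Fm.rD O (un ((U.NC : ZMod M) * x)) v = v := by
  rw [mem_WhP]
  refine ⟨fun h x => ?_, fun h x => ?_⟩
  · have := h x.val
    rwa [pow_mul, Nat.cast_mul, ZMod.natCast_zmod_val] at this
  · have := h x
    rwa [ps, AddChar.zmodChar_apply', ← pow_mul, ← Nat.cast_mul] at this

/-- the sum over the unipotent group -/
def av : Module.End O (P022D.Fm.AM O M) := ∑ x : ZMod M, ps hN hz x • P022D.Fm.rD O (un ((U.NC : ZMod M) * x))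

theorem av_apply (v : P022D.Fm.AM O M) :
    av hN hz v = ∑ x : ZMod M, ps hN hz x • P022D.Fm.rD O (un ((U.NC : ZMod M) * x)) v := by
  rw [av, LinearMap.sum_apply]
  rfl

theorem av_id {v : P022D.Fm.AM O M} (h : v ∈ U.WhP M) : av hN hz v = (M : O) • v := by
  rw [av_apply, Finset.sum_congr rfl fun x _ => (wh_iff hN hz).1 h x, Finset.sum_const,
    Finset.card_univ, ZMod.card, Nat.cast_smul_eq_nsmul]

theorem av_mem (v : P022D.Fm.AM O M) : av hN hz v ∈ U.WhP M := (wh_iff hN hz).2 fun y => by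
  rw [av_apply, map_sum, Finset.smul_sum]
  refine Fintype.sum_equiv (Equiv.addLeft y) _ _ fun x => ?_
  rw [map_smul, smul_smul, ← Module.End.mul_apply, ← rD_mul, Cyc.un_mul, Equiv.coe_addLeft,
    AddChar.map_add_eq_mul, mul_add]

theorem av_comm {g : GM M} {c : (ZMod M)ˣ} (hc : Cg M U.N c 1) (h : ∀ x : ZMod M,
    g * un ((U.NC : ZMod M) * x) = un ((U.NC : ZMod M) * ((c : ZMod M) * x)) * g) :
    Commute (av hN hz) (P022D.Fm.rD O g) := LinearMap.ext fun v => by
  rw [Module.End.mul_apply, Module.End.mul_apply, av_apply, av_apply, map_sum]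
  refine (Fintype.sum_equiv c.mulLeft _ _ fun x => ?_).symm
  obtain ⟨t, ht⟩ := hc
  have e : ps hN hz (c * x) = ps hN hz x := by
    rw [ht, add_mul, one_mul, AddChar.map_add_eq_mul, mul_assoc, ← nsmul_eq_mul,
      AddChar.map_nsmul_eq_pow, ps, AddChar.zmodChar_apply _ (t * x), ← pow_mul, ← pow_mul,
      mul_comm _ U.N, mul_left_comm, pow_mul, hz, one_pow, mul_one]
  rw [map_smul, ← Module.End.mul_apply, ← rD_mul, h, rD_mul, Module.End.mul_apply,
    Units.mulLeft_apply, e]

end av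

/-- **the projector** -/
theorem whp [IsLocalRing O] (hU : U.Ok) : WHP U := fun M L => by
  have h := Ac.lk_of hU L
  have := h.nz
  obtain ⟨c, hc⟩ := (P022D.V.root O M L.odd).2.2.2.1.exists_left_inv
  refine ⟨c • av h.dvd h.zN, fun v => Submodule.smul_mem _ _ (av_mem _ _ v), fun v hv => ?_,
    fun v hv => Submodule.smul_mem _ _ ?_, fun g hg => Commute.smul_left ?_ c,
    fun a d e => Commute.smul_left ?_ c⟩
  · rw [LinearMap.smul_apply, av_id _ _ hv, smul_smul, hc, one_smul]
  · rw [av_apply]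
    exact Submodule.sum_mem _ fun x _ => Submodule.smul_mem _ _ (GG_rD h.odd h.three _ v hv)
  · refine av_comm _ _ (c := 1) (cg_refl _) fun x => ?_
    rw [Units.val_one, one_mul]
    exact (Ac.kq_comm h.eq.dvd (Ac.un_Kq _ _) hg).symm
  · refine av_comm _ _ (Ac.cg_div e) fun x => ?_
    rw [Gn.dg_un, mul_assoc, mul_comm x]

end Vale.Agent.P022E.Fm.Nm
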