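import Vale.Agent.P022E.Fm.Rows
import Vale.Agent.P022D.Fm.Hig
import Vale.Agent.P022E.Ns

/-!
# P022D, forms side: rows HZ and EXF
-/

set_option linter.all false

open scoped MatrixGroups

noncomputable section

namespace Vale.Agent.P022E.Fm

open Vale.Agent.P022 Vale.Agent.P022D.V Vale.Agent.P022E.V Vale.Agent.P027M.M
open Vale.Agent.P022D.W.Step (kl Cs Dv)
open Vale.Agent.P022D.As (Tg cc tt dd yy dl nD)

namespace Hz

section abs

variable {ι : Type} [Fintype ι] [DecidableEq ι] {F : Type} [Field F] [CharP F 2] {Γ : ι → Type}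
  [∀ i, Group (Γ i)] [∀ i, Fintype (Γ i)] {B W : Type} [CommRing B] [AddCommGroup W] [Module B W]
  (E : P022D.Rep.Act F Γ B W) {r n : ℕ} {u : Fin r ⊕ Fin r → B}

/-- the diamond group -/
abbrev Dl (r n : ℕ) : Type := Multiplicative (Fin r ⊕ Fin r → ZMod (2 ^ n))

theorem ex_sig (hu : ∀ s (w : W), u s ^ 2 ^ n • w = w) : ∃ σ : Dl r n →* Module.End B W,
    ∀ d w, σ d w = (∏ s, u s ^ (d.toAdd s).val) • w := by
  let φ := algebraMap B (Module.End B W)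
  have h1 : ∀ s, Ideal.Quotient.mk (RingHom.ker φ) (u s) ^ 2 ^ n = 1 := fun s => by
    rw [← map_pow, ← map_one (Ideal.Quotient.mk _), Ideal.Quotient.eq, RingHom.mem_ker, map_sub,
      map_one, sub_eq_zero]
    exact LinearMap.ext (hu s)
  let θ : Dl r n →* B ⧸ RingHom.ker φ :=
    { toFun := fun d => ∏ s, Ideal.Quotient.mk (RingHom.ker φ) (u s) ^ (d.toAdd s).val
      map_one' := Finset.prod_eq_one fun s _ => by
        rw [toAdd_one, Pi.zero_apply, ZMod.val_zero, pow_zero]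
      map_mul' := fun a b => by
        rw [← Finset.prod_mul_distrib]
        refine Finset.prod_congr rfl fun s _ => ?_
        rw [toAdd_mul, Pi.add_apply, ZMod.val_add, ← pow_eq_pow_mod _ (h1 s), pow_add] }
  refine ⟨(RingHom.kerLift φ).toMonoidHom.comp θ, fun d w => ?_⟩
  have e : θ d = Ideal.Quotient.mk (RingHom.ker φ) (∏ s, u s ^ (d.toAdd s).val) := by
    simp only [map_prod, map_pow]
    rfl
  change RingHom.kerLift φ (θ d) w = _
  rw [e, RingHom.kerLift_mk]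
  rfl

theorem nrm_sig {σ : Dl r n →* Module.End B W}
    (h : ∀ d w, σ d w = (∏ s, u s ^ (d.toAdd s).val) • w) (w : W) :
    P022D.Fm.nrm n u • w = ∑ d, σ d w := by
  rw [P022D.Fm.nrm, Finset.sum_smul]
  exact Fintype.sum_equiv Multiplicative.ofAdd _ _ fun k => (h _ w).symm

theorem sig_fix {σ : Dl r n →* Module.End B W}
    (h : ∀ d w, σ d w = (∏ s, u s ^ (d.toAdd s).val) • w) (hu : ∀ s (w : W), u s ^ 2 ^ n • w = w)
    {w : W} : (∀ d, σ d w = w) ↔ ∀ s, u s • w = w := by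
  refine ⟨fun k s => ?_, fun k d => ?_⟩
  · have := k (Multiplicative.ofAdd (Pi.single s 1))
    rw [h, Finset.prod_eq_single s, toAdd_ofAdd, Pi.single_eq_same] at this
    · rcases n with _ | n
      · simpa using hu s w
      · have hf : Fact (1 < 2 ^ (n + 1)) := ⟨Nat.one_lt_two_pow (Nat.succ_ne_zero n)⟩
        rwa [ZMod.val_one, pow_one] at this
    · intro t _ ht
      rw [toAdd_ofAdd, Pi.single_eq_of_ne ht, ZMod.val_zero, pow_zero]
    · simp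
  · rw [h]
    refine Finset.prod_induction _ (fun x : B => x • w = w)
      (fun a b ha hb => by rw [mul_smul, hb, ha]) (one_smul _ _) fun s _ => ?_
    induction (d.toAdd s).val with
    | zero => rw [pow_zero, one_smul]
    | succ m ih => rw [pow_succ, mul_smul, k, ih]

theorem nrm_fix (hu : ∀ s (w : W), u s ^ 2 ^ n • w = w) (w : W) (s : Fin r ⊕ Fin r) :
    u s • P022D.Fm.nrm n u • w = P022D.Fm.nrm n u • w := by
  obtain ⟨σ, h⟩ := ex_sig hu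
  refine (sig_fix h hu).1 (fun d => ?_) s
  rw [nrm_sig h, map_sum]
  exact Fintype.sum_equiv (Equiv.mulLeft d) _ _ fun k => by
    rw [Equiv.coe_mulLeft, map_mul, Module.End.mul_apply]

theorem sum_fix {S : Subgroup (∀ i, Γ i)} {s : Finset (∀ i, Γ i)} (hs : ∀ γ, γ ∈ s ↔ γ ∈ S) (w : W)
    {g : ∀ i, Γ i} (hg : g ∈ S) : E.ρ g (∑ γ ∈ s, E.ρ γ w) = ∑ γ ∈ s, E.ρ γ w := by
  rw [map_sum]
  refine Finset.sum_equiv (Equiv.mulLeft g) (fun γ => ?_) fun γ _ => ?_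
  · rw [hs, hs, Equiv.coe_mulLeft, S.mul_mem_cancel_left hg]
  · rw [Equiv.coe_mulLeft, map_mul, Module.End.mul_apply]

/-- Higman's operator from norms -/
theorem hig (hu : ∀ s (w : W), u s ^ 2 ^ n • w = w)
    (hN : ∀ (S : Subgroup (∀ i, Γ i)) (s : Finset (∀ i, Γ i)), (∀ γ, γ ∈ s ↔ γ ∈ S) →
      ∀ w : W, (∀ γ ∈ S, E.ρ γ w = w) → (∀ j, u j • w = w) →
        ∃ w', w = P022D.Fm.nrm n u • ∑ γ ∈ s, E.ρ γ w') :
    (∃ θ, E.Hig θ) ∧ ∀ I, ∀ w ∈ E.Y I, (∀ j, u j • w = w) → ∃ w' ∈ E.Y I, w = P022D.Fm.nrm n u • w' := by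
  classical
  obtain ⟨σ, hσ⟩ := ex_sig hu
  have h1 : ∀ d c, Commute (σ d) (E.sc c) := fun d c => LinearMap.ext fun w => by
    rw [Module.End.mul_apply, Module.End.mul_apply, hσ, hσ, map_smul]
  have h2 : ∀ d g, Commute (σ d) (E.ρ g) := fun d g => LinearMap.ext fun w => by
    rw [Module.End.mul_apply, Module.End.mul_apply, hσ, hσ, map_smul]
  letI : Module F W := Module.compHom W E.sc
  have hs : ∀ (c : F) (w : W), c • w = E.sc c w := fun _ _ => rfl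
  have e1 : ∀ d c w, σ d (E.sc c w) = E.sc c (σ d w) := fun d c w =>
    LinearMap.congr_fun (h1 d c).eq w
  have e2 : ∀ d g w, σ d (E.ρ g w) = E.ρ g (σ d w) := fun d g w =>
    LinearMap.congr_fun (h2 d g).eq w
  have e3 : ∀ c g w, E.ρ g (E.sc c w) = E.sc c (E.ρ g w) := fun c g w =>
    (LinearMap.congr_fun (E.comm c g).eq w).symm
  let ρ : (Dl r n × ∀ i, Γ i) →* Module.End F W :=
    { toFun := fun g =>
        { toFun := fun w => σ g.1 (E.ρ g.2 w)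
          map_add' := fun x y => by rw [map_add, map_add]
          map_smul' := fun c w => by rw [RingHom.id_apply, hs, hs, e3, e1] }
      map_one' := LinearMap.ext fun w => by
        show σ 1 (E.ρ 1 w) = w
        rw [map_one, map_one]
        rfl
      map_mul' := fun g h => LinearMap.ext fun w => by
        show σ (g.1 * h.1) (E.ρ (g.2 * h.2) w) = σ g.1 (E.ρ g.2 (σ h.1 (E.ρ h.2 w)))
        rw [map_mul, map_mul, Module.End.mul_apply, Module.End.mul_apply, e2 h.1] }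
  have hρ : ∀ g w, ρ g w = σ g.1 (E.ρ g.2 w) := fun _ _ => rfl
  haveI : Fact (Nat.Prime 2) := ⟨Nat.prime_two⟩
  obtain ⟨S⟩ : Nonempty (Sylow 2 (∀ i, Γ i)) := inferInstance
  have h0 : ∀ v : W, v + v = 0 := fun v => by
    rw [← two_smul F, CharTwo.two_eq_zero, zero_smul]
  have hi : Odd ((⊤ : Subgroup (Dl r n)).prod (S : Subgroup (∀ i, Γ i))).index := by
    rw [Subgroup.index_prod, Subgroup.index_top, one_mul]
    exact Nat.not_even_iff_odd.1 fun e => S.not_dvd_index (even_iff_two_dvd.1 e)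
  have hp : IsPGroup 2 ((⊤ : Subgroup (Dl r n)).prod (S : Subgroup (∀ i, Γ i))) := fun g => by
    obtain ⟨k, hk⟩ := S.isPGroup' ⟨g.1.2, g.2.2⟩
    refine ⟨n + k, Subtype.ext (Prod.ext ?_ ?_)⟩
    · change g.1.1 ^ 2 ^ (n + k) = 1
      have e : g.1.1 ^ 2 ^ n = 1 := Multiplicative.toAdd.injective (funext fun i => by
        rw [toAdd_pow, Pi.smul_apply, nsmul_eq_mul, ZMod.natCast_self, zero_mul]
        rfl)
      rw [pow_add, pow_mul, e, one_pow]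
    · change g.1.2 ^ 2 ^ (n + k) = 1
      rw [pow_add, pow_mul', show g.1.2 ^ 2 ^ k = 1 from congrArg Subtype.val hk, one_pow]
  obtain ⟨θ, -, hθ⟩ := P022D.Fm.hig_ss (R := F) h0 ρ _ hp hi fun v hv => by
    obtain ⟨w', e⟩ := hN S (Finset.univ.filter fun g => g ∈ (S : Subgroup (∀ i, Γ i))) (by simp) v
      (fun γ k => by
        have := hv (1, γ) ⟨trivial, k⟩
        rwa [hρ, map_one] at this)
      ((sig_fix hσ hu).1 fun d => by
        have := hv (d, 1) ⟨trivial, one_mem _⟩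
        rwa [hρ, map_one] at this)
    refine ⟨w', e.trans ?_⟩
    rw [← Finset.sum_subtype (Finset.univ ×ˢ Finset.univ.filter fun g =>
      g ∈ (S : Subgroup (∀ i, Γ i))) (by simp [Subgroup.mem_prod]) fun g => ρ g w',
      Finset.sum_product, nrm_sig hσ]
    exact Finset.sum_congr rfl fun d _ => map_sum _ _ _
  have h4 : ∀ w, ∑ d, σ d (∑ g : ∀ i, Γ i, E.ρ g (θ.toAddMonoidHom (E.ρ g⁻¹ (σ d⁻¹ w)))) = w :=
    fun w => by
      conv_rhs => rw [← hθ w, Fintype.sum_prod_type]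
      refine Finset.sum_congr rfl fun d _ => ?_
      rw [map_sum]
      refine Finset.sum_congr rfl fun g _ => ?_
      rw [hρ, hρ]
      show σ d (E.ρ g (θ (E.ρ g⁻¹ (σ d⁻¹ w)))) = σ d (E.ρ g (θ (σ d⁻¹ (E.ρ g⁻¹ w))))
      rw [e2 d⁻¹]
  refine ⟨⟨_, E.hig_of σ _ h1 h2 (fun c w => θ.map_smul c w) h4⟩, fun I w hw hf => ?_⟩
  obtain ⟨w', a, b⟩ := E.norm_of_fix σ _ (fun c w => θ.map_smul c w) h4 hw ((sig_fix hσ hu).2 hf)
  exact ⟨w', a, b.trans (nrm_sig hσ w').symm⟩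

theorem cut_al (J : Set B) (i : ι) (x : MonoidAlgebra F (Γ i)) (w : kl (⊤ : Submodule B W) J) :
    ((P022D.Fm.cutA E J).al i x w : W) = E.al i x w := by
  induction x using MonoidAlgebra.induction_linear with
  | zero => rw [map_zero, map_zero]; rfl
  | add a b ha hb =>
    rw [map_add, map_add, LinearMap.add_apply, LinearMap.add_apply, Submodule.coe_add, ha, hb]
  | single g c => rw [P022D.Rep.Act.al_single, P022D.Rep.Act.al_single]; rfl

theorem cut_Y (J : Set B) {I : P022D.Rep.Tu F Γ} {w : kl (⊤ : Submodule B W) J} :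
    w ∈ (P022D.Fm.cutA E J).Y I ↔ (w : W) ∈ E.Y I :=
  forall₃_congr fun i x _ => by rw [← cut_al, Submodule.coe_eq_zero]

/-- the vectors fixed by `S` and by the diamond operators -/
def Kf (S : Subgroup (∀ i, Γ i)) (u : Fin r ⊕ Fin r → B) : Submodule B W where
  carrier := {w | (∀ γ ∈ S, E.ρ γ w = w) ∧ ∀ j, u j • w = w}
  zero_mem' := ⟨fun _ _ => map_zero _, fun _ => smul_zero _⟩
  add_mem' := fun a b => ⟨fun γ h => by rw [map_add, a.1 γ h, b.1 γ h],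
    fun j => by rw [smul_add, a.2, b.2]⟩
  smul_mem' := fun c w a => ⟨fun γ h => by rw [map_smul, a.1 γ h],
    fun j => by rw [smul_comm, a.2]⟩

/-- **after the cut** -/
theorem hig_cut {J : Set B} {ν : B} (hu : ∀ s (w : W), u s ^ 2 ^ n • w = w)
    (hν : ∀ c ∈ J, ∀ w : W, (c * ν) • w = 0)
    (hN : ∀ (S : Subgroup (∀ i, Γ i)) (s : Finset (∀ i, Γ i)), (∀ γ, γ ∈ s ↔ γ ∈ S) →
      ∀ w : W, (∀ γ ∈ S, E.ρ γ w = w) → (∀ j, u j • w = w) →
        ∃ w', w = P022D.Fm.nrm n u • ∑ γ ∈ s, E.ρ γ w')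
    (hC : ∀ S, Cs (Kf E S u) J ν) :
    (∃ θ, (P022D.Fm.cutA E J).Hig θ) ∧ ∀ I, ∀ w ∈ E.Y I, (∀ c ∈ J, c • w = 0) → (∀ j, u j • w = w) →
      ∃ w' ∈ E.Y I, (∀ c ∈ J, c • w' = 0) ∧ w = P022D.Fm.nrm n u • w' := by
  obtain ⟨a, b⟩ := hig (n := n) (u := u) (P022D.Fm.cutA E J) (fun s w => Subtype.ext (hu s w))
    fun S s hs w h1 h2 => by
      obtain ⟨x, hx, e⟩ := hC S w ⟨fun γ k => congrArg Subtype.val (h1 γ k),
        fun j => congrArg Subtype.val (h2 j)⟩ w.2.2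
      obtain ⟨y, rfl⟩ := hN S s hs x hx.1 hx.2
      refine ⟨⟨ν • y, trivial, fun c hc => by rw [← mul_smul, hν c hc]⟩, Subtype.ext (e.trans ?_)⟩
      rw [Submodule.coe_smul, Submodule.coe_sum, smul_comm, Finset.smul_sum]
      exact congrArg _ (Finset.sum_congr rfl fun γ _ => (map_smul _ _ _).symm)
  refine ⟨a, fun I w h1 h2 h3 => ?_⟩
  obtain ⟨w', k, e⟩ := b I ⟨w, trivial, h2⟩ ((cut_Y E J).2 h1) fun j => Subtype.ext (h3 j)
  exact ⟨w', (cut_Y E J).1 k, w'.2.2, congrArg Subtype.val e⟩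

end abs

section sub

variable {ι : Type} [Fintype ι] [DecidableEq ι] {F : Type} [Field F] [CharP F 2] {Γ : ι → Type}
  [∀ i, Group (Γ i)] [∀ i, Fintype (Γ i)] {B G : Type} [CommRing B] [AddCommGroup G] [Module B G]
  {Wb : Submodule B G} (E : P022D.Rep.Act F Γ B Wb) {r n : ℕ} {u : Fin r ⊕ Fin r → B}

theorem cs_map {K : Submodule B Wb} {J : Set B} {ν : B} :
    Cs (K.map Wb.subtype) J ν ↔ Cs K J ν := by
  refine ⟨fun h v hv k => ?_, ?_⟩
  · obtain ⟨_, ⟨x, hx, rfl⟩, e⟩ := h v ⟨v, hv, rfl⟩ fun c hc => congrArg Subtype.val (k c hc)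
    exact ⟨x, hx, Subtype.ext e⟩
  · rintro h _ ⟨v, hv, rfl⟩ k
    obtain ⟨x, hx, e⟩ := h v hv fun c hc => Subtype.ext (k c hc)
    exact ⟨x, ⟨x, hx, rfl⟩, congrArg Subtype.val e⟩

theorem cs_norm {J : Set B} {ν : B} (hu : ∀ s (w : Wb), u s ^ 2 ^ n • w = w)
    {S : Subgroup (∀ i, Γ i)} {s : Finset (∀ i, Γ i)} (hs : ∀ γ, γ ∈ s ↔ γ ∈ S)
    (h : ∀ w : Wb, (∀ γ ∈ S, E.ρ γ w = w) → (∀ j, u j • w = w) → (∀ c ∈ J, c • w = 0) →
      ∃ w' : Wb, w = ν • P022D.Fm.nrm n u • ∑ γ ∈ s, E.ρ γ w') : Cs (Kf E S u) J ν := fun v hv k => by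
  obtain ⟨w', e⟩ := h v hv.1 hv.2 k
  exact ⟨_, ⟨fun γ hγ => by rw [map_smul, sum_fix E hs w' hγ], nrm_fix hu _⟩, e⟩

theorem free_sub {J : Set B} {I : P022D.Rep.Tu F Γ}
    (h : ∀ w ∈ E.Y I, (∀ c ∈ J, c • w = 0) → (∀ j, u j • w = w) →
      ∃ w' ∈ E.Y I, (∀ c ∈ J, c • w' = 0) ∧ w = P022D.Fm.nrm n u • w') :
    ∀ v ∈ kl ((E.Y I).map Wb.subtype) J, (∀ s, u s • v = v) →
      ∃ v' ∈ kl ((E.Y I).map Wb.subtype) J, v = P022D.Fm.nrm n u • v' := by
  rintro _ ⟨⟨w, hw, rfl⟩, k⟩ f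
  obtain ⟨w', a, b, c⟩ := h w hw (fun c hc => Subtype.ext (k c hc)) fun j => Subtype.ext (f j)
  exact ⟨w', ⟨⟨w', a, rfl⟩, fun c hc => congrArg Subtype.val (b c hc)⟩, congrArg Subtype.val c⟩

/-- the two descriptions of the cut modules -/
def eqv (J : Set B) (I : P022D.Rep.Tu F Γ) :
    (P022D.Fm.cutA E J).Y I ≃ₗ[B] kl ((E.Y I).map Wb.subtype) J :=
  LinearEquiv.ofBijective
    { toFun := fun w => ⟨w.1.1.1, ⟨w.1.1, (cut_Y E J).1 w.2, rfl⟩,
        fun c hc => congrArg Subtype.val (w.1.2.2 c hc)⟩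
      map_add' := fun _ _ => rfl
      map_smul' := fun _ _ => rfl }
    ⟨fun v w e => Subtype.ext (Subtype.ext (Subtype.ext
      (congrArg (fun x : kl ((E.Y I).map Wb.subtype) J => (x : G)) e))), by
      rintro ⟨_, ⟨w, hw, rfl⟩, k⟩
      exact ⟨⟨⟨w, trivial, fun c hc => Subtype.ext (k c hc)⟩, (cut_Y E J).2 hw⟩, rfl⟩⟩

/-- linear maps are linear over the symbols -/
def mtl {T : Type} [CommRing T] (φ : T →+* B) {Y Y' : Submodule B G} (f : Y →ₗ[B] Y') :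
    P022D.Fm.Mt φ Y →ₗ[T] P022D.Fm.Mt φ Y' where
  toFun := f
  map_add' := f.map_add
  map_smul' t := f.map_smul (φ t)

theorem ses_sub {T : Type} [CommRing T] (φ : T →+* B) {J : Set B} {a b c : P022D.Rep.Tu F Γ}
    (h : ∃ (f : (P022D.Fm.cutA E J).Y a →ₗ[B] (P022D.Fm.cutA E J).Y b) (g : (P022D.Fm.cutA E J).Y b →ₗ[B] (P022D.Fm.cutA E J).Y c),
      Function.Injective f ∧ Function.Exact f g ∧ Function.Surjective g) :
    ∃ (f : P022D.Fm.Mt φ (kl ((E.Y a).map Wb.subtype) J) →ₗ[T] P022D.Fm.Mt φ (kl ((E.Y b).map Wb.subtype) J))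
      (g : P022D.Fm.Mt φ (kl ((E.Y b).map Wb.subtype) J) →ₗ[T] P022D.Fm.Mt φ (kl ((E.Y c).map Wb.subtype) J)),
      Function.Injective f ∧ Function.Exact f g ∧ Function.Surjective g := by
  obtain ⟨f, g, h1, h2, h3⟩ := h
  refine ⟨mtl φ ((eqv E J b).toLinearMap ∘ₗ f ∘ₗ (eqv E J a).symm.toLinearMap),
    mtl φ ((eqv E J c).toLinearMap ∘ₗ g ∘ₗ (eqv E J b).symm.toLinearMap),
    (eqv E J b).injective.comp (h1.comp (eqv E J a).symm.injective), fun y => ?_,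
    (eqv E J c).surjective.comp (h3.comp (eqv E J b).symm.surjective)⟩
  change eqv E J c (g ((eqv E J b).symm y)) = 0 ↔
    ∃ x, eqv E J b (f ((eqv E J a).symm x)) = y
  rw [LinearEquiv.map_eq_zero_iff, h2]
  constructor
  · rintro ⟨x, e⟩
    exact ⟨eqv E J a x, by
      rw [LinearEquiv.symm_apply_apply, e]
      exact LinearEquiv.apply_symm_apply _ _⟩
  · rintro ⟨x, rfl⟩
    exact ⟨_, (LinearEquiv.symm_apply_apply _ _).symm⟩

end sub

theorem det_Kq {M K : ℕ} {g : GM M} (h : g ∈ Kq M K) :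
    P022D.V.Cg M K (g : Matrix (Fin 2) (Fin 2) (ZMod M)).det 1 := by
  obtain ⟨a, ha⟩ := h 0 0
  obtain ⟨b, hb⟩ := h 0 1
  obtain ⟨c, hc⟩ := h 1 0
  obtain ⟨d, hd⟩ := h 1 1
  refine ⟨a + d + K * (a * d - b * c), ?_⟩
  rw [Matrix.det_fin_two, ha, hb, hc, hd]
  simp only [Matrix.one_apply_eq, ne_eq, zero_ne_one, one_ne_zero, not_false_eq_true,
    Matrix.one_apply_ne]
  ring

theorem cg_dv {M N K : ℕ} (h : N ∣ K) {x y : ZMod M} (hx : P022D.V.Cg M K x y) : P022D.V.Cg M N x y := by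
  obtain ⟨c, rfl⟩ := h
  obtain ⟨t, rfl⟩ := hx
  exact ⟨c * t, by rw [Nat.cast_mul, mul_assoc]⟩

variable {O F : Type} [CommRing O] [IsLocalRing O] [Co O] [Field F] [CharP F 2] {U : Su O F}
  [hC : ∀ l : U.L.C, Fact l.1.Prime] {Cc : ∀ l : U.L.C, P022D.Rep.Ch (ZMod l.1) F}
  {r n : ℕ} {q : Fin r → ℕ} (P : Lq U r n q)

theorem wb_le : U.Wb P.M n ≤ U.sb P.M (U.Zp P.M n) := fun _ hv h hh => (hv h hh).1

/-- every element of the product of the projective groups acts as a translation -/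
theorem ex_tr (hU : U.Ok) (hm : U.Lm P.M) (hD : DIC U Cc) (γ : ∀ l, U.Gam l) :
    ∃ h : GM P.M, P022D.V.Cg P.M U.NW (h : Matrix (Fin 2) (Fin 2) (ZMod P.M)).det 1 ∧
      ∀ w : U.Wb P.M n, (((P.X.E.ρ γ w : U.Wb P.M n) : U.GG P.M) : P022D.Fm.AM O P.M) =
        P022D.Fm.rD O h (w : U.GG P.M) := by
  obtain ⟨d1, d2, -⟩ := hD P.M n hm P.X P.ok
  let H : Submonoid (∀ l, U.Gam l) :=
    { carrier := {γ | ∃ h : GM P.M, P022D.V.Cg P.M U.NW (h : Matrix (Fin 2) (Fin 2) (ZMod P.M)).det 1 ∧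
        ∀ w : U.Wb P.M n, (((P.X.E.ρ γ w : U.Wb P.M n) : U.GG P.M) : P022D.Fm.AM O P.M) =
          P022D.Fm.rD O h (w : U.GG P.M)}
      one_mem' := ⟨1, ⟨0, by simp⟩, fun w => by
        rw [map_one]
        exact funext fun g => congrArg _ (mul_one g).symm⟩
      mul_mem' := by
        rintro a b ⟨h, ⟨s, hs⟩, e⟩ ⟨h', ⟨t, ht⟩, e'⟩
        refine ⟨h * h', ⟨s + t + U.NW * s * t, ?_⟩, fun w => ?_⟩
        · rw [Units.val_mul, Matrix.det_mul, hs, ht]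
          ring
        · rw [map_mul, Module.End.mul_apply, e, e']
          exact funext fun g => congrArg _ (mul_assoc g h h') }
  refine Submonoid.pi_mem_of_mulSingle_mem (H := H) γ fun l => ?_
  obtain ⟨g, hg⟩ := QuotientGroup.mk_surjective (γ l)
  refine ⟨P022D.Rep.emb (d1 l) g, cg_dv (Nat.dvd_div_of_mul_dvd ?_) (det_Kq (P022D.Rep.emb_mem _ g)),
    hg ▸ d2 l (d1 l) g⟩
  refine Dvd.dvd.trans ?_ hm.dvd
  rw [mul_comm, Su.N, hU.NC]
  exact mul_dvd_mul_left _ (Finset.dvd_prod_of_mem (fun l => l) l.2)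

theorem gk (hU : U.Ok) (hm : U.Lm P.M) (hD : DIC U Cc) (S : Subgroup (∀ l, U.Gam l)) :
    P.Gk ((Kf P.X.E S P.u).map (U.Wb P.M n).subtype) := by
  choose h h1 h2 using ex_tr P hU hm hD
  refine ⟨h '' S ∪ Set.range (Sum.elim (fun i => dg 1 (P.b i)) fun i => dg (P.b i) (P.b i)⁻¹ :
    Fin r ⊕ Fin r → GM P.M), fun _ => 1, ?_, fun v => ⟨?_, fun ⟨a, b⟩ => ⟨⟨v, a⟩,
      ⟨fun γ k => Subtype.ext (Subtype.ext ?_), fun j => Subtype.ext (Subtype.ext ?_)⟩, rfl⟩⟩⟩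
  · rintro _ (⟨γ, -, rfl⟩ | ⟨i | i, rfl⟩)
    · exact h1 γ
    · have := P.lv.b1 i
      refine cg_dv (Nat.dvd_div_of_mul_dvd ?_) (show P022D.V.Cg P.M (P.M / q i) _ 1 by
        simpa [dg_coe, Matrix.det_fin_two] using this)
      rw [P.lv.eq, mul_comm]
      exact mul_dvd_mul (dvd_mul_right _ _) (Finset.dvd_prod_of_mem q (Finset.mem_univ i))
    · exact ⟨0, by simp [dg_coe, Matrix.det_fin_two]⟩
  · rintro ⟨w, ⟨a, b⟩, rfl⟩
    refine ⟨w.2, ?_⟩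
    rintro _ (⟨γ, k, rfl⟩ | ⟨j, rfl⟩)
    · exact ((h2 γ w).symm.trans (congrArg (fun x : U.Wb P.M n => ((x : U.GG P.M) : P022D.Fm.AM O P.M))
        (a γ k))).trans (one_smul _ _).symm
    · refine Eq.trans ?_ ((congrArg (fun x : U.Wb P.M n => ((x : U.GG P.M) : P022D.Fm.AM O P.M))
        (b j)).trans (one_smul _ _).symm)
      rcases j with i | i
      exacts [((P.dia i).1 w).symm, ((P.dia i).2 w).symm]
  · exact (h2 γ ⟨v, a⟩).trans ((b _ (Or.inl ⟨γ, k, rfl⟩)).trans (one_smul _ _))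
  · refine Eq.trans ?_ ((b _ (Or.inr ⟨j, rfl⟩)).trans (one_smul _ _))
    rcases j with i | i
    exacts [(P.dia i).1 v, (P.dia i).2 v]

end Hz

variable {O F : Type} [CommRing O] [IsLocalRing O] [Co O] [Field F] [CharP F 2] {U : Su O F}
  [hC : ∀ l : U.L.C, Fact l.1.Prime] {Cc : ∀ l : U.L.C, P022D.Rep.Ch (ZMod l.1) F}

/-- **row HZ** -/
theorem hzC (hU : U.Ok) (hL : LQ U) (hD : DIC U Cc) (hA : DIA U) (hN : NZ0 U) (hK : CUT U) :
    HZ U := fun r n q P => by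
  classical
  obtain ⟨ν, a, h1, h2, h3⟩ := hK r n q P
  have hu : ∀ s (w : U.Wb P.M n), P.u s ^ 2 ^ n • w = w := fun s w =>
    Subtype.ext (((hA r n q P).1 w (Hz.wb_le P w.2)).2.2 s)
  obtain ⟨x, y⟩ := Hz.hig_cut (J := P.X.JW) (ν := ν) P.X.E hu
    (fun c hc w => Subtype.ext (h2 c hc w (Hz.wb_le P w.2)))
    (fun S s hs w a1 a2 => ((hN r n q P a h1).2 S s hs w a1 a2).1)
    fun S => Hz.cs_map.1 (h3 _ (Hz.gk P hU (hL.1 _ _ _ _ _ _ P.lv) hD S) (Hz.cs_map.2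
      (Hz.cs_norm P.X.E hu (s := Finset.univ.filter fun γ => γ ∈ S) (by simp)
        fun w a1 a2 => ((hN r n q P a h1).2 S _ (by simp) w a1 a2).2)))
  exact ⟨x, fun I => Hz.free_sub P.X.E (y I)⟩

/-- **row EXF** -/
theorem exfH (hA : DIA U) (hZ : HZ U) : EXF U Cc := fun r n q P => by
  obtain ⟨⟨θ, h1⟩, h2⟩ := hZ r n q P
  refine ⟨fun i j k s => Hz.ses_sub P.X.E P.ev (P.Ec.sesH h1 s), fun i w hw => ?_⟩
  have le : ∀ v ∈ P.X.Y i.v, v ∈ U.sb P.M (U.Zp P.M n) := by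
    rintro _ ⟨⟨x, -, rfl⟩, -⟩
    exact Hz.wb_le P x.2
  obtain ⟨v, hv⟩ := w
  obtain ⟨v', a, b⟩ := h2 i.v v hv fun s =>
    (((hA r n q P).1 v (le v hv)).1 s).symm.trans (congrArg Subtype.val (hw s))
  exact ⟨⟨v', a⟩, Subtype.ext (b.trans ((hA r n q P).1 v' (le v' a)).2.1.symm)⟩

end Vale.Agent.P022E.Fm
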