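import Vale.Agent.P022E.Fm.NwA
import Vale.Agent.P022E.Fm.Rows
import Vale.Agent.P022E.Ns

/-!
# P022D, forms side: the rows NOINV, URF, NWF
-/

set_option linter.all false

open scoped MatrixGroups

noncomputable section

namespace Vale.Agent.P022E.Fm

open Vale.Agent.P022 Vale.Agent.P022D.V Vale.Agent.P022E.V Vale.Agent.P027M.M
open Vale.Agent.P022D.G (Inert)
open Vale.Agent.P022D.W.Step (kl)
open Vale.Agent.P027M.S (mx)
open Vale.Agent.P022D.As (Tg tt)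

namespace N6

section rep

open Vale.Agent.P022D.Rep Vale.Agent.P022E.Rep

variable {ι : Type} [Fintype ι] [DecidableEq ι] {F : Type} [Field F] [CharP F 2]
  {Γ : ι → Type} [∀ i, Group (Γ i)] [∀ i, Fintype (Γ i)] {T W : Type} [CommRing T]
  [AddCommGroup W] [Module T W] (E : Act F Γ T W) {l : ι} {K : Type} [Field K] [Fintype K]
  (D : BN K (Γ l)) (C : P022D.Rep.Ch K F)

omit [CharP F 2] in
theorem cut_al (J : Set T) (i : ι) (r : MonoidAlgebra F (Γ i)) (w : kl (⊤ : Submodule T W) J) :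
    ((P022D.Fm.cutA E J).al i r w : W) = E.al i r w := by
  refine el_ind (p := fun r => ((P022D.Fm.cutA E J).al i r w : W) = E.al i r w) r ?_ ?_ ?_
  · intro g
    rw [Act.al_el, Act.al_el]
    rfl
  · intro x y hx hy
    rw [map_add, map_add, LinearMap.add_apply, LinearMap.add_apply, Submodule.coe_add, hx, hy]
  · intro c x hx
    rw [Act.al_smul, Act.al_smul, Module.End.mul_apply, Module.End.mul_apply, ← hx]
    rfl

theorem ex_B {θ : W →+ W} (h : E.Hig θ) {I : Tu F Γ} (hI : I l = Ip D C) {w : W}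
    (hw : w ∈ E.Y I) : ∃ v, (∀ b ∈ D.B, E.ρ (Pi.mulSingle l b) v = v) ∧
      E.al l (trB D F) v = 0 ∧ E.al l (ee D C 1 * el F D.w) v = w := by
  obtain ⟨v, hv⟩ := E.stp_surj h I l (col_p D C) ⟨w, by rwa [← hI, Function.update_eq_self]⟩
  have a := (E.kill_sup l _ _ v.1).1 (E.mem_Y_update.1 v.2).1
  exact ⟨v, (E.kill_Ib D _).1 a.1, a.2 _ (Submodule.mem_span_singleton_self _),
    congrArg Subtype.val hv⟩

theorem kill_G {w : W} (hw : ∀ g, E.ρ (Pi.mulSingle l g) w = w) :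
    E.al l (ee D C 1 * el F D.w) w = 0 := by
  refine (E.kill_It l w).2 hw _ ?_
  have k : ∀ g : Γ l, el F g • (Submodule.Quotient.mk 1 : MonoidAlgebra F (Γ l) ⧸ It F (Γ l)) =
      (Submodule.Quotient.mk 1 : MonoidAlgebra F (Γ l) ⧸ It F (Γ l)) := fun g => by
    rw [← Submodule.Quotient.mk_smul, Submodule.Quotient.eq, smul_eq_mul, mul_one]
    exact Submodule.subset_span ⟨g, rfl⟩
  have e := ee1_bf D C fun b _ => k b
  rw [← k D.w, smul_smul, ← Submodule.Quotient.mk_smul, Submodule.Quotient.mk_eq_zero,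
    smul_eq_mul, mul_one] at e
  exact e

end rep

variable {O F : Type} [CommRing O] [IsLocalRing O] [Co O] [Field F] [CharP F 2] {U : Su O F}

omit [Co O] [CharP F 2] in
theorem inert_tau (hL : U.L.Ok U.S) {l : ℕ} (hl : l ∈ U.L.C) : Inert l (U.L.τ l) :=
  have a := Finset.mem_union_right U.L.W hl
  ⟨U.L.P l, (hL.hP l a).1, (hL.hP l a).2, (hL.tm l a).tau⟩

omit [Co O] [CharP F 2] in
theorem frob_phi (hL : U.L.Ok U.S) {l : ℕ} (hl : l ∈ U.L.C) : IsFrob l (U.L.φ l) :=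
  have a := Finset.mem_union_right U.L.W hl
  ⟨U.L.P l, (hL.hP l a).1, (hL.hP l a).2, (hL.tm l a).frob⟩

omit [CharP F 2] in
theorem three_div (hU : U.Ok) {M M₀ l : ℕ} (hM : U.N ∣ M) (sp : Sp M M₀ l) (hl : l ∈ U.L.C)
    (h : mx U.S.rb (U.L.τ l) = 1) : 3 ≤ M₀ := by
  have key : ∀ p ∈ U.L.W ∪ U.L.C, p ≠ l → p ∣ U.N → 3 ≤ M₀ := fun p hp ne d => by
    obtain ⟨p1, p2⟩ := hU.ok.pr p hp
    have a : p ∣ M₀ * l := sp.eq ▸ d.trans hM
    have b := Nat.le_of_dvd sp.M0pos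
      (((Nat.coprime_primes p1 sp.prime).2 ne).dvd_of_dvd_mul_right a)
    have := p1.two_le
    omega
  rcases hU.W3 with ⟨p, hp⟩ | ⟨p, hp, e⟩
  · have a := Finset.mem_union_left U.L.C hp
    exact key p a (fun e => Finset.disjoint_left.1 hU.ok.dj hp (e ▸ hl))
      (((hU.NW p (hU.ok.pr p a).1).2 hp).mul_right _)
  · refine key p (Finset.mem_union_right _ hp) (fun x => e (x ▸ h)) (Dvd.dvd.mul_left ?_ _)
    rw [hU.NC]
    exact Finset.dvd_prod_of_mem _ hp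

/-- Iwahori vectors of trace zero become invariant -/
theorem core {M M₀ q : ℕ} (sp : Sp M M₀ q) {s : GM M} (hs : IsS M M₀ s) {t : GQ → U.B M}
    {d : GQ →* (U.B M)ˣ} (h : U.Op t d) (hL : U.L.Ok U.S) (hN : P022D.Nw.NEWD O) {φ : GQ}
    (hφ : IsFrob q φ) (tl : ∀ f : U.GG M, (f : P022D.Fm.AM O M) ∈ Iv O (RD O) (Kq M M₀) →
      (1 + Ts O (RD O) M₀ q s) (W2 O (RD O) M M₀ q (zD O M) U.i f) =
        q • ((t φ • f : U.GG M) : P022D.Fm.AM O M))
    {v : U.GG M} (hb : (v : P022D.Fm.AM O M) ∈ Iv O (RD O) (Bq M M₀))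
    (h1 : (1 + Ts O (RD O) M₀ q s) (v : P022D.Fm.AM O M) = 0) (h2 : (v : P022D.Fm.AM O M) + v = 0) :
    ((t φ ^ 5 • v : U.GG M) : P022D.Fm.AM O M) ∈ Iv O (RD O) (Kq M M₀) := by
  have hM := sp.Mpos.ne'
  obtain ⟨k, hk⟩ := sp.qodd
  have wb := P022D.Nw.W2_B sp (pzD sp).pow hs U.i hb
  let x : U.GG M := ⟨_, GG_W sp hs v.2 hb⟩
  let f : U.GG M := ⟨_, GG_Tr sp hs x.2 wb⟩
  have fk : (f : P022D.Fm.AM O M) ∈ Iv O (RD O) (Kq M M₀) := P022D.Nw.Tr_K sp hs wb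
  have f2 : f + f = 0 := Subtype.ext (by
    show (1 + Ts O (RD O) M₀ q s) (W2 O (RD O) M M₀ q (zD O M) U.i v) +
      (1 + Ts O (RD O) M₀ q s) (W2 O (RD O) M M₀ q (zD O M) U.i v) = 0
    rw [← map_add, ← map_add, h2, map_zero, map_zero])
  have v2 : v + v = 0 := Subtype.ext h2
  have ev : ∀ y : U.GG M, y + y = 0 → ∀ m : ℕ, (2 * m) • (y : P022D.Fm.AM O M) = 0 := fun y hy m => by
    rw [mul_comm, mul_nsmul', two_nsmul, ← Submodule.coe_add, hy, Submodule.coe_zero, nsmul_zero]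
  have tf : t φ • f + t φ • f = 0 := by rw [← smul_add, f2, smul_zero]
  have a1 := (op_nat h hM (ch_Tr sp hs U.i) φ hb (w := 0) h1.symm).1
  have a2 := (op_nat h hM (ch_W sp hs U.i) φ hb (w := x) rfl).1.2
  have a3 := (op_nat h hM (ch_Tr sp hs U.i) φ (v := x) wb (w := f) rfl).1.2
  rw [smul_zero] at a1
  have nw := op_new sp hs h hL hN hφ (v := t φ • v - f) (sub_mem a1.1 (P022D.Nw.K_B fk))
    (by
      rw [Submodule.coe_sub, map_sub, ← a1.2, P022D.Nw.Tr_of_K sp hs fk,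
        show q + 1 = 2 * (k + 1) by omega, ev f f2]
      exact sub_self _)
    (by
      rw [Submodule.coe_sub, map_sub, map_sub, ← a2, ← a3, tl f fk, hk, succ_nsmul, ev _ tf,
        zero_add, sub_self])
  have two : (2 : U.B M) ∈ Ideal.torsionOf (U.B M) _ (t φ • v - f) :=
    (Ideal.mem_torsionOf_iff _ _).2 (by
      rw [two_smul, ← add_sub_add_comm, ← smul_add, v2, f2, smul_zero, sub_zero])
  have e := sub_mem ((Ideal.mem_torsionOf_iff _ _).2 nw) (Ideal.mul_mem_left _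
    (2 * (k * t φ ^ 2 - 2 * (k + 1) ^ 2 * (d φ : U.B M)) *
      ((k + 1) * t φ ^ 2 - 2 * (k + 1) ^ 2 * (d φ : U.B M))) two)
  have e4 : t φ ^ 4 • (t φ • v - f) = 0 := (Ideal.mem_torsionOf_iff _ _).1 (by
    refine Eq.mp (congrArg _ ?_) e
    rw [hk]
    push_cast
    ring)
  rw [smul_sub, sub_eq_zero, ← mul_sm, ← pow_succ] at e4
  have k4 : ∀ m : ℕ, ((t φ ^ m • f : U.GG M) : P022D.Fm.AM O M) ∈ Iv O (RD O) (Kq M M₀) := by
    intro m
    induction m with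
    | zero => rwa [pow_zero, one_smul]
    | succ m ih => rw [pow_succ', mul_sm]; exact (op_iv h hM φ ih).1
  exact e4.symm ▸ k4 4

variable [hC : ∀ l : U.L.C, Fact l.1.Prime]

section dic

variable {M n : ℕ} {X : Dt U M n} {l : U.L.C} (sp : Sp M (M / l.1) l.1)
  (act : ∀ (g : GL (Fin 2) (ZMod l.1)) (w : U.Wb M n),
    (((X.E.ρ (Pi.mulSingle l (QuotientGroup.mk g)) w : U.Wb M n) : U.GG M) : P022D.Fm.AM O M) =
      P022D.Fm.rD O (P022D.Rep.emb sp g) (w : U.GG M))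
include act

theorem fixK (w : U.Wb M n) : (∀ g, X.E.ρ (Pi.mulSingle l g) w = w) ↔
    ((w : U.GG M) : P022D.Fm.AM O M) ∈ Iv O (RD O) (Kq M (M / l.1)) := by
  rw [mem_Iv]
  constructor
  · intro h g hg
    obtain ⟨g, rfl⟩ := (P022D.Rep.mem_Kq sp).1 hg
    exact (act g w).symm.trans (by rw [h])
  · intro h g
    obtain ⟨g, rfl⟩ := QuotientGroup.mk_surjective g
    exact Subtype.ext (Subtype.ext ((act g w).trans (h _ (P022D.Rep.emb_mem sp g))))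

theorem fixB {w : U.Wb M n} (h : ∀ b ∈ (U.bn l).B, X.E.ρ (Pi.mulSingle l b) w = w) :
    ((w : U.GG M) : P022D.Fm.AM O M) ∈ Iv O (RD O) (Bq M (M / l.1)) := by
  refine mem_Iv.2 fun g hg => ?_
  obtain ⟨g, rfl⟩ := (P022D.Rep.mem_Kq sp).1 hg.1
  exact (act g w).symm.trans (by
    rw [h (QuotientGroup.mk g) ⟨g, (P022D.Rep.emb_B sp).1 hg, rfl⟩])

theorem trB_coe (w : U.Wb M n) :
    (((X.E.al l (P022D.Rep.trB (U.bn l) F) w : U.Wb M n) : U.GG M) : P022D.Fm.AM O M) =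
      (1 + Ts O (RD O) (M / l.1) l.1 (P022D.Rep.emb sp (P022D.Rep.wG (ZMod l.1)))) (w : U.GG M) := by
  rw [P022D.Rep.Act.al_trB, LinearMap.add_apply, P022D.Rep.Ts_eq sp O (RD O) (P022D.Rep.emb_w sp), Submodule.coe_add,
    Submodule.coe_add, Submodule.coe_sum, Submodule.coe_sum]
  exact congrArg _ (Finset.sum_congr rfl fun y _ => act (P022D.Rep.uG y * P022D.Rep.wG (ZMod l.1)) w)

end dic

theorem ev_tt {r n : ℕ} {q : Fin r → ℕ} (P : Lq U r n q) (g : GQ) : P.ev (tt g) = P.X.t g :=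
  MvPolynomial.eval₂Hom_X' _ _ _

end N6

open Vale.Agent.P022D.Fm.N6 Vale.Agent.P022E.Fm.N6

variable {O F : Type} [CommRing O] [IsLocalRing O] [Co O] [Field F] [CharP F 2] {U : Su O F}

/-- **row NOINV** -/
theorem noinvC (hU : U.Ok) : NOINV U := fun _ _ _ h _ _ hl hr sp _ hv =>
  P022E.Fm.N6.op_noinv h hU.ok sp (P022E.Fm.N6.inert_tau hU.ok hl) hr hv

variable [hC : ∀ l : U.L.C, Fact l.1.Prime] {Cc : ∀ l : U.L.C, P022D.Rep.Ch (ZMod l.1) F}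

/-- **row URF** -/
theorem urf6 (hU : U.Ok) (lq : LQ U) (dic : DIC U Cc) : URF U Cc := by
  intro r n q P J l hl g w
  obtain ⟨sp, act, -⟩ := dic P.M n (lq.1 _ _ _ _ _ _ P.lv) P.X P.ok
  obtain ⟨_, ⟨w, hw, rfl⟩, hJ⟩ := (w : P.X.Y (P022D.Rep.XJ U.bn Cc J).v)
  have a := (P022E.Fm.N6.fixK (sp l) (act l (sp l)) w).1 ((P.X.E.kill_It l w).1 fun x hx =>
    hw l x (by rwa [P022D.Rep.XJ_out U.bn Cc hl]))
  refine Subtype.ext ?_
  show P.ev (tt (g * U.L.τ l)) • (w : U.GG P.M) = P.ev (tt g) • (w : U.GG P.M)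
  rw [P022E.Fm.N6.ev_tt, P022E.Fm.N6.ev_tt]
  exact P.ok.op.ur _ _ (sp l) _ (P022E.Fm.N6.inert_tau hU.ok l.2) _ a g

/-- **row NWF** -/
theorem nwfC (hU : U.Ok) (hN : P022D.Nw.NEWD O) (hG : P022D.Gt.GT O) (lq : LQ U) (dic : DIC U Cc)
    (hz : HZ U) : NWF U Cc := by
  intro r n q P J l hl w
  have lm := lq.1 _ _ _ _ _ _ P.lv
  obtain ⟨sp, act, -⟩ := dic P.M n lm P.X P.ok
  obtain ⟨θ, hθ⟩ := (hz r n q P).1
  obtain ⟨_, ⟨w, hw, rfl⟩, hJ⟩ := (w : P.X.Y (P022D.Rep.XJ U.bn Cc J).v)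
  obtain ⟨v, b1, b2, b3⟩ := P022E.Fm.N6.ex_B P.Ec (U.bn l) (Cc l) hθ (P022D.Rep.XJ_in U.bn Cc hl)
    (w := ⟨w, trivial, fun c hc => Subtype.ext (hJ c hc)⟩)
    fun i x hx => Subtype.ext ((P022E.Fm.N6.cut_al P.X.E P.X.JW i x _).trans (hw i x hx))
  replace b2 := (P022E.Fm.N6.cut_al P.X.E P.X.JW l _ v).symm.trans (congrArg Subtype.val b2)
  replace b3 := (P022E.Fm.N6.cut_al P.X.E P.X.JW l _ v).symm.trans (congrArg Subtype.val b3)
  have hs := P022D.Rep.emb_w (sp l)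
  have hφ := P022E.Fm.N6.frob_phi hU.ok l.2
  have c := P022E.Fm.N6.core (sp l) hs P.ok.op hU.ok hN hφ (v := v.1.1) (fun f hf => by
      by_cases e : mx U.S.rb (U.L.τ l) = 1
      · exact (P022E.Fm.N6.op_tl (sp l) hs P.ok.op hU.ok hG (P022E.Fm.N6.three_div hU lm.dvd (sp l) l.2 e) hφ hf).1
      · rw [noinvC hU _ _ _ P.ok.op _ _ l.2 e (sp l) f hf, smul_zero, Submodule.coe_zero, map_zero,
          map_zero, nsmul_zero])
    (P022E.Fm.N6.fixB (sp l) (act l (sp l)) fun b hb => congrArg Subtype.val (b1 b hb))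
    ((P022E.Fm.N6.trB_coe (sp l) (act l (sp l)) v.1).symm.trans (by rw [b2]; rfl)) (by
      obtain ⟨y, hy⟩ := hU.uni.dvd 2 (root O P.M lm.odd).2.2.2.2.2.2.2.2.1
      rw [← two_smul O, hy, mul_comm, mul_smul, P022D.Fm.mem_Tor.1 (P022D.Fm.mem_of_sub v.1.2).2, smul_zero])
  have e := P022E.Fm.N6.kill_G P.X.E (U.bn l) (Cc l)
    ((P022E.Fm.N6.fixK (sp l) (act l (sp l)) (P.X.t (U.L.φ l) ^ 5 • v.1)).2 c)
  rw [map_smul, b3] at e
  refine Subtype.ext ?_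
  show P.ev (tt (U.L.φ l) ^ 5) • (w : U.GG P.M) = 0
  rw [map_pow, P022E.Fm.N6.ev_tt]
  exact congrArg Subtype.val e

end Vale.Agent.P022E.Fm
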