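import Vale.Agent.P022E.Loc.Cls
import Vale.Agent.P022D.G.Frob
import Vale.Agent.P027M.F.Tra
import Vale.Agent.P022E.Ns
import Vale.Agent.P022E.G6
import Vale.Agent.P022E.Sel.Defs

/-!
# P022D, forms side: units among the traces of the point
-/

set_option linter.all false

noncomputable section

namespace Vale.Agent.P022E.Fm

open IsLocalRing NumberField
open scoped Pointwise
open Vale.Agent.P022 Vale.Agent.P022D.R Vale.Agent.P022E.R
open Vale.Agent.P027M.S (mx)
open Vale.Agent.P022D.Sel (M2)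
open Vale.Agent.P022E.Sel (Dh)
open Vale.Agent.P022E.Loc (Pl)

/-- all Frobenius elements at an unramified prime have the same trace -/
theorem frob_tr {A : Type} [CommRing A] (ρ : GQ →* M2 A) {l : ℕ} (hl : l.Prime)
    (hu : ∀ g, P022D.G.Inert l g → ρ g = 1) {φ φ' : GQ} (h : IsFrob l φ) (h' : IsFrob l φ') :
    (ρ φ).trace = (ρ φ').trace ∧ (ρ φ).det = (ρ φ').det := by
  obtain ⟨P, hP, h1, h2⟩ := h
  obtain ⟨Q, hQ, h3, h4⟩ := h'
  obtain ⟨g, rfl⟩ := P027M.F.Tra.trans hl hP hQ h1 h3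
  have h5 : ρ (g * φ * g⁻¹ * φ'⁻¹) = 1 := by
    refine hu _ ⟨_, hQ, h3, fun x => ?_⟩
    have h6 := Ideal.smul_mem_pointwise_smul g _ P (h2 (g⁻¹ • φ'⁻¹ • x))
    have h7 := h4 (φ'⁻¹ • x)
    rw [smul_sub, smul_pow', smul_inv_smul] at h6
    rw [smul_inv_smul] at h7
    have h8 := Ideal.sub_mem _ h6 h7
    rw [sub_sub_sub_cancel_right] at h8
    rw [mul_smul, mul_smul, mul_smul]
    exact h8
  have h9 : ρ φ' = ρ g * ρ φ * ρ g⁻¹ := by
    rw [← map_mul, ← map_mul, ← one_mul (ρ φ'), ← h5, ← map_mul, inv_mul_cancel_right]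
  constructor
  · rw [h9, Matrix.trace_mul_cycle, ← map_mul, inv_mul_cancel, map_one, one_mul]
  · rw [h9, Matrix.det_mul, Matrix.det_mul, mul_right_comm, ← Matrix.det_mul, ← map_mul,
      mul_inv_cancel, map_one, Matrix.det_one, one_mul]

theorem tr_pow_zero {A : Type} [CommRing A] (h2 : (2 : A) = 0) {m : M2 A} (h : m.trace = 0)
    (k : ℕ) : (m ^ k).trace = 0 := by
  have e : ∀ n : M2 A, (n * m * m).trace = m.trace * (n * m).trace - m.det * n.trace := by
    intro n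
    simp only [Matrix.trace_fin_two, Matrix.det_fin_two, Matrix.mul_apply, Fin.sum_univ_two]
    ring
  induction k using Nat.twoStepInduction with
  | zero =>
    rw [pow_zero, Matrix.trace_fin_two, Matrix.one_apply_eq, Matrix.one_apply_eq,
      one_add_one_eq_two, h2]
  | one => rw [pow_one, h]
  | more k h0 _ => rw [pow_succ, pow_succ, e, h, h0, zero_mul, mul_zero, sub_zero]

variable {O F : Type} [CommRing O] [Field F] {S : Dat O F}

variable [IsLocalRing O] {L : Pl O}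

theorem red_trace (hL : L.Ok S) (g : GQ) : S.red (L.r g).trace = (mx S.rb g).trace := by
  rw [← hL.lift g]; exact AddMonoidHom.map_trace S.red (L.r g)

theorem unit_of_red (hL : L.Ok S) {c : O} (h : S.red c ≠ 0) : IsUnit c :=
  notMem_maximalIdeal.1 fun e => h ((hL.ker c).2 e)

theorem unit_tr (hL : L.Ok S) {s : GQ} (hs : mx S.rb s ≠ 1) :
    ∃ g, IsUnit ((L.r (g * s)).trace - (L.r g).trace) := by
  obtain ⟨g, hg⟩ := G6.res_tr hL.h10 hs
  exact ⟨g, unit_of_red hL (by rw [map_sub, red_trace hL, red_trace hL]; exact sub_ne_zero.2 hg)⟩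

/-- a prime whose Frobenius elements have unit trace -/
theorem ex_l0 [CharP F 2] (hL : L.Ok S)
    (unr : ∀ l : ℕ, l.Prime → l ∉ S.T → ∀ g, P022D.G.Inert l g → L.r g = 1) (A : Finset ℕ) :
    ∃ l0 : ℕ, l0.Prime ∧ l0 ∉ A ∧ l0 ∉ S.T ∧ (∃ φ, IsFrob l0 φ) ∧
      ∀ φ, IsFrob l0 φ → IsUnit (L.r φ).trace := by
  classical
  obtain ⟨l, φ, k, hl, hA, hφ, hu⟩ := P022D.G.frob S.rb.ker inferInstance hL.dh.opn S.g0 (A ∪ S.T)
  have hT : l ∉ S.T := fun e => hA (Finset.mem_union_right _ e)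
  refine ⟨l, hl, fun e => hA (Finset.mem_union_left _ e), hT, ⟨φ, hφ⟩, fun φ' h' => ?_⟩
  rw [← (frob_tr L.r hl (unr l hl hT) hφ h').1]
  refine unit_of_red hL fun e => ?_
  rw [red_trace hL] at e
  have h1 := tr_pow_zero (CharTwo.two_eq_zero (R := F)) e k
  have h2 : S.rb S.g0 = S.rb φ ^ k := by
    rw [MonoidHom.mem_ker, map_mul, map_inv, map_pow, inv_mul_eq_one] at hu
    exact hu
  have h3 : mx S.rb φ ^ k = mx S.rb S.g0 :=
    (Units.val_pow_eq_pow_val _ _).symm.trans (congrArg Units.val h2.symm)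
  rw [h3, Matrix.trace_fin_two, CharTwo.add_eq_zero] at h1
  exact S.dne h1

end Vale.Agent.P022E.Fm
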