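import Vale.Agent.P022E.As.Defs2
import Vale.Agent.P022D.Top.Setup
import Vale.Agent.P022D.V.Spec
import Vale.Agent.P022.H20.Frob
import Vale.Agent.P022E.Ns

/-!
# P022D, forms side: from the output of the patching argument to limits of eigenvalues
-/

set_option linter.all false

open Matrix

noncomputable section

namespace Vale.Agent.P022E.Fm

open Vale.Agent.P022 Vale.Agent.P022D.V Vale.Agent.P022E.V Vale.Agent.P022D.As Vale.Agent.P022E.As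
  Vale.Agent.P022D.Top Vale.Agent.P022E.Top
open Vale.Agent.P022E.Loc (Pl)
open Vale.Agent.P027M.M (ze)

namespace Out

theorem raise {E : Type} [NontriviallyNormedField E] {N N' : ℕ} [NeZero N] [NeZero N']
    (hd : N ∣ N') {r : GQ →* GL (Fin 2) E} (h : P022D.Top.LimR N r) : P022D.Top.LimR N' r := by
  obtain ⟨m, rfl⟩ := hd
  haveI : NeZero m := ⟨fun e => NeZero.ne (N * m) (by rw [e, mul_zero])⟩
  intro φ hφ
  classical
  choose ψ hψ using fun ℓ : PA N => H20.exists_isFrob ℓ.2.1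
  let φ' : PA N → GQ := fun ℓ => if h : ℓ.1.Prime ∧ ¬ ℓ.1 ∣ 2 * (N * m) then φ ⟨ℓ.1, h⟩ else ψ ℓ
  have h1 := (h φ' fun ℓ => by
    by_cases h : ℓ.1.Prime ∧ ¬ ℓ.1 ∣ 2 * (N * m)
    · simp only [φ', dif_pos h]
      exact hφ ⟨ℓ.1, h⟩
    · simp only [φ', dif_neg h]
      exact hψ ℓ).raise m
  have e : ∀ ℓ : PA (N * m), φ' (H567.Tw.dec1 ℓ) = φ ℓ := fun ℓ => dif_pos ℓ.2
  have e2 : (fun s => P022D.Top.sys r φ' (H567.Tw.decG s)) = P022D.Top.sys r φ := by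
    funext s
    rcases s with ℓ | ℓ
    · exact congrArg (fun g => (r g : Matrix (Fin 2) (Fin 2) E).trace) (e ℓ)
    · exact congrArg (fun g => (r g : Matrix (Fin 2) (Fin 2) E).det) (e ℓ)
  rwa [e2] at h1

variable {O : Type} [CommRing O]

/-- the words as elements of `Tg O` -/
def wt (O : Type) [CommRing O] {N : ℕ} (φ : PA N → GQ) : P022D.G.Wd N →ₐ[ℤ] Tg O :=
  FreeAlgebra.lift ℤ (Sum.elim (fun ℓ => tt (φ ℓ)) fun ℓ => dd (φ ℓ))

theorem Bq_self {M : ℕ} {g : GM M} (h : g ∈ Bq M M) : g = 1 := by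
  apply Units.ext
  ext i j
  obtain ⟨y, hy⟩ := h.1 i j
  rw [hy, ZMod.natCast_self, zero_mul, add_zero, Units.val_one]

theorem act [Co O] {M N i : ℕ} (u : PA N → (ZMod M)ˣ) (φ : PA N → GQ) {W : Type} [AddCommGroup W]
    [Module (Tg O) W] (ι : W →+ FT M (RD O))
    (hT : ∀ ℓ w, ι ((tt (φ ℓ) : Tg O) • w) = T2 O _ i ℓ.1 (u ℓ) (ι w))
    (hS : ∀ ℓ w, ι ((dd (φ ℓ) : Tg O) • w) = S2 O _ i ℓ.1 (u ℓ) (ι w)) (x : P022D.G.Wd N) (w : W) :
    ι (wt O φ x • w) = wd O (RD O) i u 1 x (ι w) := by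
  induction x using FreeAlgebra.induction generalizing w with
  | grade0 n =>
    rw [AlgHom.commutes, AlgHom.commutes, eq_intCast, eq_intCast, Module.End.intCast_apply,
      Int.cast_smul_eq_zsmul, map_zsmul]
  | grade1 s =>
    rw [wt, wd, FreeAlgebra.lift_ι_apply, FreeAlgebra.lift_ι_apply]
    rcases s with ℓ | ℓ
    · rw [Sum.elim_inl, Sum.elim_inl, hT, Pi.one_apply, inv_one, dg_one, map_one]
      rfl
    · rw [Sum.elim_inr, Sum.elim_inr, hS, Pi.one_apply, inv_one, mul_one, dg_one, map_one]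
      rfl
  | mul p q hp hq => rw [map_mul, map_mul, mul_smul, hp, hq, Module.End.mul_apply]
  | add p q hp hq => rw [map_add, map_add, add_smul, map_add, hp, hq, LinearMap.add_apply]

end Out

/-- **OUT** -/
theorem limR {E : Type} [NontriviallyNormedField E] [IsUltrametricDist E] [Co (P022D.Top.Ob E)]
    (hC : CLAD (P022D.Top.Ob E)) {r : GQ →* GL (Fin 2) E} {L : Pl (P022D.Top.Ob E)}
    (htr : ∀ g, ((L.r g).trace : E) = (r g : Matrix (Fin 2) (Fin 2) E).trace)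
    (hdt : ∀ g, ((L.r g).det : E) = (r g : Matrix (Fin 2) (Fin 2) E).det)
    {M N' i : ℕ} [NeZero N'] (hM : Odd M) (h3 : 3 ≤ M) (hN : M ^ 2 ∣ N') {z : P022D.Top.Ob E}
    (hz : Co.j z = ze M 1) {W : Type} [AddCommGroup W] [Module (Tg (P022D.Top.Ob E)) W]
    (ι : W →+ FT M (RD (P022D.Top.Ob E))) (hι : Function.Injective ι)
    (hX : ∀ w, ι w ∈ XD (P022D.Top.Ob E) M i) (hW : ∀ w, ι w ∈ Wh (P022D.Top.Ob E) _ M z)
    (hT : ∀ (p : ℕ) (u : (ZMod M)ˣ) φ, p.Prime → p ≠ 2 → (u : ZMod M) = p → IsFrob p φ →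
      ∀ w, ι ((tt φ : Tg (P022D.Top.Ob E)) • w) = T2 (P022D.Top.Ob E) _ i p u (ι w))
    (hS : ∀ (p : ℕ) (u : (ZMod M)ˣ) φ, p.Prime → p ≠ 2 → (u : ZMod M) = p → IsFrob p φ →
      ∀ w, ι ((dd φ : Tg (P022D.Top.Ob E)) • w) = S2 (P022D.Top.Ob E) _ i p u (ι w))
    {ϖ : P022D.Top.Ob E} (hϖ : ¬ IsUnit ϖ) (h : P022E.As.Out2 ϖ L W) : P022D.Top.LimR N' r := by
  haveI : NeZero (M ^ 2) := ⟨pow_ne_zero _ hM.pos.ne'⟩
  refine Out.raise hN fun φ hφ ε hε => ?_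
  classical
  have hc : ∀ ℓ : PA (M ^ 2), Nat.Coprime ℓ.1 M := fun ℓ =>
    Nat.Coprime.coprime_dvd_right (dvd_pow_self M two_ne_zero) ℓ.coprime
  have h2 : ∀ ℓ : PA (M ^ 2), ℓ.1 ≠ 2 := fun ℓ e => ℓ.2.2 (by rw [e]; exact dvd_mul_right _ _)
  let u : PA (M ^ 2) → (ZMod M)ˣ := fun ℓ => ZMod.unitOfCoprime ℓ.1 (hc ℓ)
  have hu : ∀ ℓ, (u ℓ : ZMod M) = ℓ.1 := fun ℓ => ZMod.coe_unitOfCoprime _ _
  have hL : P022D.V.Lev M M 1 M (M ^ 2) u 1 :=
    ⟨hM, (mul_one M).symm, Nat.coprime_one_right M, (mul_one _).symm, dvd_rfl, dvd_rfl, by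
      rw [Nat.div_self hM.pos]; exact Nat.coprime_one_right M, hu, fun ℓ => ⟨0, by simp⟩,
      fun ℓ => ⟨1 - (ℓ.1 : ZMod M), by simp⟩⟩
  have hn : ‖(ϖ : E)‖ < 1 := P022D.Top.max_Ob.1 hϖ
  obtain ⟨j, hj⟩ := exists_pow_lt_of_lt_one hε hn
  obtain ⟨s, hs⟩ := h j
  choose K _ hK using fun w : W => (hC M M 1 M (M ^ 2) u 1 z i hL h3 hz).1 (ι w)
    ⟨⟨hX w, hW w⟩, fun g hg => by rw [Out.Bq_self hg, map_one, one_smul]; rfl⟩
  refine ⟨(s.biUnion K).sup id + 1, fun x hx => ?_⟩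
  have h1 := hs (Out.wt (P022D.Top.Ob E) φ x) fun v hv => hι (by
    rw [Out.act u φ ι (fun ℓ => hT _ _ _ ℓ.2.1 (h2 ℓ) (hu ℓ) (hφ ℓ))
      (fun ℓ => hS _ _ _ ℓ.2.1 (h2 ℓ) (hu ℓ) (hφ ℓ)), map_zero]
    refine hK v x fun k hk f _ => ?_
    have : P022D.G.sg (M ^ 2) k x = 0 := hx k (Nat.lt_succ_of_le
      (Finset.le_sup (f := id) (Finset.mem_biUnion.2 ⟨v, hv, hk⟩)))
    rw [this, LinearMap.zero_apply])
  have e : ∀ x, FreeAlgebra.lift ℤ (P022D.Top.sys r φ) x = (ev0 L.r (Out.wt (P022D.Top.Ob E) φ x) : E) := by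
    intro x
    induction x using FreeAlgebra.induction with
    | grade0 n =>
      rw [AlgHom.commutes, AlgHom.commutes, eq_intCast, eq_intCast, map_intCast,
        Subring.coe_intCast]
    | grade1 s =>
      rw [Out.wt, FreeAlgebra.lift_ι_apply, FreeAlgebra.lift_ι_apply]
      rcases s with ℓ | ℓ
      · exact (htr (φ ℓ)).symm.trans (congrArg Subtype.val
          (MvPolynomial.eval₂Hom_X' _ _ _ : ev0 L.r (tt (φ ℓ)) = (L.r (φ ℓ)).trace)).symm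
      · exact (hdt (φ ℓ)).symm.trans (congrArg Subtype.val
          (MvPolynomial.eval₂Hom_X' _ _ _ : ev0 L.r (dd (φ ℓ)) = (L.r (φ ℓ)).det)).symm
    | mul p q hp hq => rw [map_mul, map_mul, map_mul, Subring.coe_mul, hp, hq]
    | add p q hp hq => rw [map_add, map_add, map_add, Subring.coe_add, hp, hq]
  rw [e]
  refine lt_of_le_of_lt (P022D.Top.dvd_Ob.1 h1) ?_
  rwa [SubmonoidClass.coe_pow, norm_pow]

end Vale.Agent.P022E.Fm
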